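/-
R242 / Res / Defs : the two definitions of package ALG (moved verbatim from `Res/Main.lean`, so that the proof files can import them).
Statements: helper73 (spec: helper100).  Owner of the proofs of PART 1: helper231.
-/
import Mathlib

set_option autoImplicit false

namespace Claimed.Agent.R242

open Module

/-- homogeneous algebraic independence -/
def HomIndep {B : Type*} [CommRing B] [Algebra ℂ B] {r : ℕ} (σ : Fin r → B) : Prop :=
  ∀ (e : ℕ) (P : MvPolynomial (Fin r) ℂ), P.IsHomogeneous e → MvPolynomial.aeval σ P = 0 → P = 0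

/-- the hypotheses of the abstract restriction lemma -/
structure ResHyp (B : Type*) [CommRing B] [Algebra ℂ B] (S : ℕ → Submodule ℂ B) (k e₀ b₀ n : ℕ) : Prop where
  fin : ∀ j, FiniteDimensional ℂ (S j)
  mul : ∀ i j, S i * S j ≤ S (i + j)
  h1 : ∀ q, e₀ ≤ q → S ((q + 1) * k) ≤ S k * S (q * k)
  h1' : ∀ q, e₀ ≤ q → S ((q + 1) * (k + 1)) ≤ S (k + 1) * S (q * (k + 1))
  h2 : ∀ b, b₀ ≤ b → S b ≠ ⊥
  h3b : ∀ j (σ : Fin (n + 2) → B), (∀ i, σ i ∈ S j) → ¬ HomIndep σ

end Claimed.Agent.R242

/-! equation lemmas of this file, cited once here (rule 6) -/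
namespace Claimed.Agent.R242

theorem r242_eqcite_Res_Defs : True := by
  have := @Claimed.Agent.R242.HomIndep.eq_1.{0}
  trivial

end Claimed.Agent.R242
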