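/-
R242 / Res / Num : the numerical end of package ALG-1 (steps (5), (6), (7) of the plan in `Res/Main.lean`).

Only a function `N : ℕ → ℕ` (`N h = finrank (S h)`) occurs.
 * `ResSand N κ e₀ n` : the sandwich delivered by the algebra for the degrees that are multiples of `κ`.
 * `res_num_main`  : monotonicity up to shifts `≥ b₀` + sandwiches for `k`, `k+1` + a lower bound of order `d`  ⟹  `h - C ≤ (d! N h)^(1/d)`, `C`, `H` depending only on `(k, e₀, b₀, n)`.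
 * `res_num_upper` : `N j ≤ CN j^n`.
Route: `res_num_cmp` (asymptotic comparison of an upper and a lower binomial bound along the common multiples) gives `d1(k) = d1(k+1)`, `d ≤ d1`,
`D_k (k+1)^d1 = D_(k+1) k^d1`, hence `k^d1 ∣ D_k`.          helper299.
-/
import Mathlib

set_option autoImplicit false

namespace Claimed.Agent.R242

open Filter Topology

/-- the sandwich for the degrees `q κ` -/
def ResSand (N : ℕ → ℕ) (κ e₀ n : ℕ) : Prop :=
  ∃ d1 D c : ℕ, d1 ≤ n ∧ 1 ≤ D ∧ (∀ q, N (q * κ) ≤ D * (q + c + d1).choose d1) ∧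
    ∀ D0, 1 ≤ D0 → D0 ≤ D → ∀ q, D0 * (q + d1).choose d1 ≤ N ((e₀ + D0 - 1 + q) * κ)

theorem res_num_low (x m : ℕ) : (x + 1) ^ m ≤ m.factorial * (x + m).choose m := by
  rw [← Nat.descFactorial_eq_factorial_mul_choose]
  have h := Nat.pow_sub_le_descFactorial (x + m) m
  have e : x + m + 1 - m = x + 1 := by omega
  rwa [e] at h

theorem res_num_up (y m : ℕ) : m.factorial * y.choose m ≤ y ^ m := by
  rw [← Nat.descFactorial_eq_factorial_mul_choose]
  exact Nat.descFactorial_le_pow y m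

/-- comparison of leading terms -/
theorem res_num_lim (A Bc α β s t : ℝ) (m m' : ℕ) (hmm : m' ≤ m)
    (h : ∀ᶠ q : ℕ in atTop, A * (α * q - s) ^ m ≤ Bc * (β * q + t) ^ m') :
    A * α ^ m ≤ Bc * β ^ m' * 0 ^ (m - m') := by
  have h0 : Tendsto (fun q : ℕ => ((q : ℝ))⁻¹) atTop (𝓝 0) := tendsto_inv_atTop_nhds_zero_nat
  have h1 : Tendsto (fun q : ℕ => A * (α - s * ((q : ℝ))⁻¹) ^ m) atTop (𝓝 (A * (α - s * 0) ^ m)) :=
    ((tendsto_const_nhds.sub (h0.const_mul s)).pow m).const_mul A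
  have h2 : Tendsto (fun q : ℕ => Bc * (β + t * ((q : ℝ))⁻¹) ^ m' * (((q : ℝ))⁻¹) ^ (m - m')) atTop
      (𝓝 (Bc * (β + t * 0) ^ m' * 0 ^ (m - m'))) :=
    (((tendsto_const_nhds.add (h0.const_mul t)).pow m').const_mul Bc).mul (h0.pow (m - m'))
  have h3 : ∀ᶠ q : ℕ in atTop, A * (α - s * ((q : ℝ))⁻¹) ^ m
      ≤ Bc * (β + t * ((q : ℝ))⁻¹) ^ m' * (((q : ℝ))⁻¹) ^ (m - m') := by
    filter_upwards [h, eventually_ge_atTop 1] with q hq hq1
    have hx : (0 : ℝ) < q := by exact_mod_cast hq1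
    have e1 : α - s * ((q : ℝ))⁻¹ = (α * q - s) * ((q : ℝ))⁻¹ := by
      field_simp
    have e2 : β + t * ((q : ℝ))⁻¹ = (β * q + t) * ((q : ℝ))⁻¹ := by
      field_simp
    have e3 : (((q : ℝ))⁻¹) ^ m = (((q : ℝ))⁻¹) ^ m' * (((q : ℝ))⁻¹) ^ (m - m') := by
      rw [← pow_add, Nat.add_sub_cancel' hmm]
    calc A * (α - s * ((q : ℝ))⁻¹) ^ m = (A * (α * q - s) ^ m) * (((q : ℝ))⁻¹) ^ m := by
          rw [e1, mul_pow]; ring
      _ ≤ (Bc * (β * q + t) ^ m') * (((q : ℝ))⁻¹) ^ m := by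
          apply mul_le_mul_of_nonneg_right hq
          positivity
      _ = Bc * (β + t * ((q : ℝ))⁻¹) ^ m' * (((q : ℝ))⁻¹) ^ (m - m') := by
          rw [e2, mul_pow, e3]; ring
  have h4 := le_of_tendsto_of_tendsto h1 h2 h3
  simpa using h4

/-- **Comparison** of an upper bound along the multiples of `κ` with a lower bound along the multiples of `κ'`. -/
theorem res_num_cmp (N : ℕ → ℕ) (κ κ' d1 d1' D D0 c s : ℕ) (hκ : 1 ≤ κ) (hD0 : 1 ≤ D0)
    (hup : ∀ q, N (q * κ) ≤ D * (q + c + d1).choose d1)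
    (hlow : ∀ q, D0 * (q + d1').choose d1' ≤ N ((s + q) * κ')) :
    d1' ≤ d1 ∧ (d1' = d1 → D0 * κ ^ d1 ≤ D * κ' ^ d1) := by
  have key : ∀ q, s ≤ q * κ → D0 * d1.factorial * (q * κ - s + 1) ^ d1'
      ≤ D * d1'.factorial * (q * κ' + c + d1) ^ d1 := by
    intro q hq
    have h1 := hlow (q * κ - s)
    have e1 : (s + (q * κ - s)) * κ' = (q * κ') * κ := by
      rw [Nat.add_sub_cancel' hq]; ring
    rw [e1] at h1
    have h2 := h1.trans (hup (q * κ'))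
    calc D0 * d1.factorial * (q * κ - s + 1) ^ d1'
        ≤ D0 * d1.factorial * (d1'.factorial * (q * κ - s + d1').choose d1') :=
          Nat.mul_le_mul_left _ (res_num_low _ _)
      _ = d1.factorial * d1'.factorial * (D0 * (q * κ - s + d1').choose d1') := by ring
      _ ≤ d1.factorial * d1'.factorial * (D * (q * κ' + c + d1).choose d1) :=
          Nat.mul_le_mul_left _ h2
      _ = D * d1'.factorial * (d1.factorial * (q * κ' + c + d1).choose d1) := by ring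
      _ ≤ D * d1'.factorial * (q * κ' + c + d1) ^ d1 := Nat.mul_le_mul_left _ (res_num_up _ _)
  have keyR : ∀ᶠ q : ℕ in atTop, ((D0 * d1.factorial : ℕ) : ℝ) * ((κ : ℝ) * q - ((s : ℝ) - 1)) ^ d1'
      ≤ ((D * d1'.factorial : ℕ) : ℝ) * ((κ' : ℝ) * q + ((c + d1 : ℕ) : ℝ)) ^ d1 := by
    filter_upwards [eventually_ge_atTop s] with q hq
    have hq' : s ≤ q * κ := le_trans hq (Nat.le_mul_of_pos_right q hκ)
    have h1 := key q hq'
    have h3 : ((q * κ - s + 1 : ℕ) : ℝ) = (κ : ℝ) * q - ((s : ℝ) - 1) := by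
      push_cast [Nat.cast_sub hq']; ring
    have h4 : ((q * κ' + c + d1 : ℕ) : ℝ) = (κ' : ℝ) * q + ((c + d1 : ℕ) : ℝ) := by
      push_cast; ring
    rw [← h3, ← h4]
    exact_mod_cast h1
  have hle : d1' ≤ d1 := by
    by_contra hlt
    push Not at hlt
    have h1 := res_num_lim _ _ _ _ _ _ d1' d1 hlt.le keyR
    rw [zero_pow (by omega), mul_zero] at h1
    have hpos : 0 < ((D0 * d1.factorial : ℕ) : ℝ) * (κ : ℝ) ^ d1' := by
      have h5 : 0 < D0 * d1.factorial := Nat.mul_pos hD0 (Nat.factorial_pos _)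
      have h6 : (0 : ℝ) < κ := by exact_mod_cast hκ
      have h7 : (0 : ℝ) < ((D0 * d1.factorial : ℕ) : ℝ) := by exact_mod_cast h5
      positivity
    linarith
  refine ⟨hle, fun he => ?_⟩
  subst he
  have h1 := res_num_lim _ _ _ _ _ _ d1' d1' le_rfl keyR
  rw [Nat.sub_self, pow_zero, mul_one] at h1
  have h2 : D0 * d1'.factorial * κ ^ d1' ≤ D * d1'.factorial * κ' ^ d1' := by exact_mod_cast h1
  have h5 : (D0 * κ ^ d1') * d1'.factorial ≤ (D * κ' ^ d1') * d1'.factorial := by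
    calc (D0 * κ ^ d1') * d1'.factorial = D0 * d1'.factorial * κ ^ d1' := by ring
      _ ≤ D * d1'.factorial * κ' ^ d1' := h2
      _ = (D * κ' ^ d1') * d1'.factorial := by ring
  exact Nat.le_of_mul_le_mul_right h5 (Nat.factorial_pos _)

theorem res_num_fact (d d1 : ℕ) (h : d ≤ d1) : d1.factorial ≤ d.factorial * d1 ^ (d1 - d) := by
  have h1 := Nat.factorial_mul_ascFactorial d (d1 - d)
  have h2 := Nat.ascFactorial_le_pow_add d (d1 - d)
  rw [Nat.add_sub_cancel' h] at h1 h2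
  rw [← h1]
  exact Nat.mul_le_mul_left _ h2

/-- the statement in `ℕ` -/
theorem res_num_core (k e₀ b₀ n : ℕ) (hk : 1 ≤ k) (N : ℕ → ℕ)
    (hmono : ∀ h b, b₀ ≤ b → N h ≤ N (h + b)) (hs : ResSand N k e₀ n)
    (hs' : ResSand N (k + 1) e₀ n) (d : ℕ) (hd : 1 ≤ d) (k' : ℕ)
    (hk' : ∀ q, 1 ≤ q → (q + d).choose d ≤ N (q * k')) (h : ℕ)
    (hh : b₀ + k * (e₀ + k ^ n) + n ≤ h) :
    (h - (b₀ + k * (e₀ + k ^ n))) ^ d ≤ d.factorial * N h := by
  obtain ⟨d1, D, c, hd1, hD, hup, hlow⟩ := hs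
  obtain ⟨d1', D', c', _, hD', hup', hlow'⟩ := hs'
  have hA := res_num_cmp N k (k + 1) d1 d1' D D' c (e₀ + D' - 1) hk hD' hup (hlow' D' hD' le_rfl)
  have hB := res_num_cmp N (k + 1) k d1' d1 D' D c' (e₀ + D - 1) (by omega) hD hup'
    (hlow D hD le_rfl)
  have e : d1' = d1 := le_antisymm hA.1 hB.1
  subst e
  have h1 : D' * k ^ d1' ≤ D * (k + 1) ^ d1' := hA.2 rfl
  have h2 : D * (k + 1) ^ d1' ≤ D' * k ^ d1' := hB.2 rfl
  have h3 : D * (k + 1) ^ d1' = D' * k ^ d1' := le_antisymm h2 h1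
  have hdvd : k ^ d1' ∣ D := by
    have h4 : k ^ d1' ∣ D * (k + 1) ^ d1' := ⟨D', by rw [h3]; ring⟩
    exact (Nat.Coprime.pow d1' d1' (by simp : Nat.Coprime k (k + 1))).dvd_of_dvd_mul_right h4
  have hle : k ^ d1' ≤ D := Nat.le_of_dvd hD hdvd
  have hdd : d ≤ d1' := by
    refine (res_num_cmp N k k' d1' d D 1 c 1 hk le_rfl hup fun q => ?_).1
    rw [one_mul]
    refine le_trans (Nat.choose_le_choose d (by omega)) (hk' (1 + q) (by omega))
  have hkpos : 1 ≤ k ^ d1' := Nat.one_le_pow _ _ hk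
  have hC : ∀ q, (k * (q + 1)) ^ d1' ≤ d1'.factorial * N ((e₀ + k ^ d1' - 1 + q) * k) := by
    intro q
    have h5 := hlow (k ^ d1') hkpos hle q
    calc (k * (q + 1)) ^ d1' = k ^ d1' * (q + 1) ^ d1' := mul_pow _ _ _
      _ ≤ k ^ d1' * (d1'.factorial * (q + d1').choose d1') :=
          Nat.mul_le_mul_left _ (res_num_low q d1')
      _ = d1'.factorial * (k ^ d1' * (q + d1').choose d1') := by ring
      _ ≤ _ := Nat.mul_le_mul_left _ h5
  -- the degree `Q k` below `h - b₀`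
  set s1 := e₀ + k ^ d1' - 1 with hs1
  set Q := (h - b₀) / k with hQ
  set x := h - (b₀ + k * (e₀ + k ^ n)) with hx
  have hpow : k ^ d1' ≤ k ^ n := Nat.pow_le_pow_right hk hd1
  have hs1le : s1 ≤ e₀ + k ^ n := by omega
  have hQge : e₀ + k ^ n ≤ Q := by
    rw [hQ, Nat.le_div_iff_mul_le (by omega)]
    have : (e₀ + k ^ n) * k = k * (e₀ + k ^ n) := by ring
    omega
  obtain ⟨q, hq⟩ : ∃ q, Q = s1 + q := ⟨Q - s1, by omega⟩
  have hQk : Q * k ≤ h - b₀ := Nat.div_mul_le_self _ _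
  have hN : N (Q * k) ≤ N h := by
    have h5 := hmono (Q * k) (h - Q * k) (by omega)
    rwa [Nat.add_sub_cancel' (by omega)] at h5
  have hlt : h - b₀ < k * (Q + 1) := Nat.lt_mul_div_succ _ (by omega)
  have hxle : x ≤ k * (q + 1) := by
    have e1 : k * (Q + 1) = k * s1 + k * (q + 1) := by rw [hq]; ring
    have e2 : k * s1 ≤ k * (e₀ + k ^ n) := Nat.mul_le_mul_left _ hs1le
    omega
  have hxn : d1' ≤ x := by omega
  have h6 : x ^ d1' ≤ d1'.factorial * N h := by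
    calc x ^ d1' ≤ (k * (q + 1)) ^ d1' := Nat.pow_le_pow_left hxle _
      _ ≤ d1'.factorial * N ((s1 + q) * k) := hC q
      _ = d1'.factorial * N (Q * k) := by rw [hq]
      _ ≤ _ := Nat.mul_le_mul_left _ hN
  have h7 : x ^ d * d1' ^ (d1' - d) ≤ (d.factorial * N h) * d1' ^ (d1' - d) := by
    calc x ^ d * d1' ^ (d1' - d) ≤ x ^ d * x ^ (d1' - d) :=
          Nat.mul_le_mul_left _ (Nat.pow_le_pow_left hxn _)
      _ = x ^ d1' := by rw [← pow_add, Nat.add_sub_cancel' hdd]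
      _ ≤ d1'.factorial * N h := h6
      _ ≤ (d.factorial * d1' ^ (d1' - d)) * N h := Nat.mul_le_mul_right _ (res_num_fact d d1' hdd)
      _ = _ := by ring
  exact Nat.le_of_mul_le_mul_right h7 (Nat.pow_pos (by omega))

/-- **The numerical end of `res_main`.** -/
theorem res_num_main (k e₀ b₀ n : ℕ) (hk : 1 ≤ k) :
    ∃ (C : ℝ) (H : ℕ), ∀ N : ℕ → ℕ, (∀ h b, b₀ ≤ b → N h ≤ N (h + b)) → ResSand N k e₀ n →
      ResSand N (k + 1) e₀ n → ∀ d : ℕ, 1 ≤ d → ∀ k' : ℕ,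
      (∀ q, 1 ≤ q → (q + d).choose d ≤ N (q * k')) →
      ∀ h : ℕ, H ≤ h → (h : ℝ) - C ≤ ((d.factorial : ℝ) * N h) ^ (1 / (d : ℝ)) := by
  refine ⟨((b₀ + k * (e₀ + k ^ n) : ℕ) : ℝ), b₀ + k * (e₀ + k ^ n) + n, ?_⟩
  intro N hmono hs hs' d hd k' hk' h hh
  have h1 := res_num_core k e₀ b₀ n hk N hmono hs hs' d hd k' hk' h hh
  have h2 : (h : ℝ) - ((b₀ + k * (e₀ + k ^ n) : ℕ) : ℝ) = ((h - (b₀ + k * (e₀ + k ^ n)) : ℕ) : ℝ) := by
    rw [Nat.cast_sub (by omega)]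
  rw [h2]
  set x := h - (b₀ + k * (e₀ + k ^ n))
  have h3 : ((x : ℝ)) ^ d ≤ (d.factorial : ℝ) * N h := by exact_mod_cast h1
  have h4 : ((x : ℝ) ^ d) ^ ((d : ℝ)⁻¹) = x :=
    Real.pow_rpow_inv_natCast (Nat.cast_nonneg x) (by omega)
  rw [one_div]
  calc (x : ℝ) = ((x : ℝ) ^ d) ^ ((d : ℝ)⁻¹) := h4.symm
    _ ≤ _ := Real.rpow_le_rpow (by positivity) h3 (by positivity)

/-- **The numerical end of `res_upper`.** -/
theorem res_num_upper (k e₀ b₀ n : ℕ) (hk : 1 ≤ k) (N : ℕ → ℕ)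
    (hmono : ∀ h b, b₀ ≤ b → N h ≤ N (h + b)) (hs : ResSand N k e₀ n) :
    ∃ CN : ℝ, ∀ j : ℕ, 1 ≤ j → (N j : ℝ) ≤ CN * (j : ℝ) ^ n := by
  obtain ⟨d1, D, c, hd1, _, hup, _⟩ := hs
  refine ⟨((D * (b₀ + c + n + 2) ^ n : ℕ) : ℝ), fun j hj => ?_⟩
  set Q := (j + b₀) / k + 1 with hQ
  have hlt : j + b₀ < k * Q := Nat.lt_mul_div_succ _ (by omega)
  have hQle : Q ≤ j + b₀ + 1 := by
    have := Nat.div_le_self (j + b₀) k
    omega
  have e1 : Q * k = k * Q := Nat.mul_comm _ _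
  have hN : N j ≤ N (Q * k) := by
    have h5 := hmono j (Q * k - j) (by omega)
    rwa [Nat.add_sub_cancel' (by omega)] at h5
  have h1 : (Q + c + d1).choose d1 ≤ (Q + c + d1) ^ d1 := by
    calc (Q + c + d1).choose d1 ≤ d1.factorial * (Q + c + d1).choose d1 :=
          Nat.le_mul_of_pos_left _ (Nat.factorial_pos _)
      _ ≤ _ := res_num_up _ _
  have h2 : Q + c + d1 ≤ (b₀ + c + n + 2) * j := by
    calc Q + c + d1 ≤ j + (b₀ + c + n + 1) := by omega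
      _ ≤ j + (b₀ + c + n + 1) * j := by
          have := Nat.le_mul_of_pos_right (b₀ + c + n + 1) hj
          omega
      _ = (b₀ + c + n + 2) * j := by ring
  have hQpos : 0 < Q + c + d1 := by
    have : 0 < Q := Nat.succ_pos _
    omega
  have h3 : N j ≤ D * (b₀ + c + n + 2) ^ n * j ^ n := by
    calc N j ≤ N (Q * k) := hN
      _ ≤ D * (Q + c + d1).choose d1 := hup Q
      _ ≤ D * (Q + c + d1) ^ d1 := Nat.mul_le_mul_left _ h1
      _ ≤ D * (Q + c + d1) ^ n := Nat.mul_le_mul_left _ (Nat.pow_le_pow_right hQpos hd1)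
      _ ≤ D * ((b₀ + c + n + 2) * j) ^ n := Nat.mul_le_mul_left _ (Nat.pow_le_pow_left h2 _)
      _ = _ := by rw [mul_pow]; ring
  exact_mod_cast h3

end Claimed.Agent.R242
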