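/-
R242 / Res / Red : REDUCTIONS OF SUBSPACES = graded Noether normalisation with linear forms.   Owner: helper231.   Prefix `res_`.

`B` a `ℂ`-algebra, `U, W` subspaces.  `ResRed W U`: `W ≤ U` and `U^(c+1) ≤ W * U^c` for some `c` (products of `Submodule`s).
* `res_span_pow`, `res_mem_span_pow`   `(span σ)^q` = values of the homogeneous polynomials of degree `q` at `σ`
* `res_finrank_pow`                    `dim (span σ)^q = choose (q + d1) d1` if `σ : Fin (d1+1) → B` is `HomIndep`
* `res_red_pow`, `res_red_trans`       `U^(c+q) ≤ W^q * U^c`; transitivity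
* `res_red_step`                       a linearly independent family which is not `HomIndep` spans a space with a strictly smaller reduction:
                                       `Q(w) = 0`, `Q(lam) ≠ 0`, `lam i0 ≠ 0`, `W' = span (lam i0 • w i - lam i • w i0)`;
                                       `T_m G = lam i0^m • G(w) - G(lam) • (w i0)^m ∈ W' * W^(m-1)` for `G` homogeneous of degree `m` (induction on `m`).
* `res_nn`                             every finite dimensional `U` has a reduction spanned by a `HomIndep` family.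
-/
import Claimed.Agent.R242.Res.Defs

set_option autoImplicit false

namespace Claimed.Agent.R242

open Module MvPolynomial

variable {B : Type} [CommRing B] [Algebra ℂ B]

theorem res_span_pow {r : ℕ} (σ : Fin r → B) (q : ℕ) :
    (Submodule.span ℂ (Set.range σ)) ^ q =
      Submodule.map (aeval σ).toLinearMap (homogeneousSubmodule (Fin r) ℂ q) := by
  rw [← homogeneousSubmodule_one_pow, Submodule.map_pow, homogeneousSubmodule_one_eq_span_X,
    Submodule.map_span, ← Set.range_comp]
  congr 2
  ext i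
  simp

theorem res_mem_span_pow {r : ℕ} (σ : Fin r → B) (q : ℕ) (z : B) :
    z ∈ (Submodule.span ℂ (Set.range σ)) ^ q ↔
      ∃ P : MvPolynomial (Fin r) ℂ, P.IsHomogeneous q ∧ aeval σ P = z := by
  rw [res_span_pow]
  simp

theorem res_finrank_hom (r q : ℕ) :
    finrank ℂ (homogeneousSubmodule (Fin r) ℂ q) = (r + q - 1).choose q := by
  classical
  rw [homogeneousSubmodule_eq_finsupp_supported]
  have hfin : {d : Fin r →₀ ℕ | d.degree = q}.Finite := Finsupp.finite_of_degree_eq q
  have : Fintype {d : Fin r →₀ ℕ | d.degree = q} := hfin.fintype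
  rw [(AddMonoidAlgebra.supportedEquivFinsupp (R := ℂ) (S := ℂ)
    {d : Fin r →₀ ℕ | d.degree = q}).finrank_eq, Module.finrank_finsupp_self]
  have h := Finset.card_finsuppAntidiag_nat_eq_choose (s := (Finset.univ : Finset (Fin r))) q
  rw [Finset.card_univ, Fintype.card_fin] at h
  rw [← h, ← Set.toFinset_card]
  congr 1
  ext d
  simp [Finsupp.degree_eq_sum]

theorem res_finrank_pow {d1 : ℕ} (σ : Fin (d1 + 1) → B) (h : HomIndep σ) (q : ℕ) :
    finrank ℂ ((Submodule.span ℂ (Set.range σ)) ^ q : Submodule ℂ B) = (q + d1).choose d1 := by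
  have hinj : Function.Injective
      ((aeval σ).toLinearMap.domRestrict (homogeneousSubmodule (Fin (d1 + 1)) ℂ q)) := by
    rw [← LinearMap.ker_eq_bot, LinearMap.ker_eq_bot']
    intro P hP
    exact Subtype.ext (h q P.1 P.2 hP)
  rw [res_span_pow, ← LinearMap.range_domRestrict, LinearMap.finrank_range_of_inj hinj,
    res_finrank_hom]
  have e : d1 + 1 + q - 1 = q + d1 := by omega
  rw [e, Nat.choose_symm_add]

/-- `W` is a reduction of `U` -/
def ResRed (W U : Submodule ℂ B) : Prop := W ≤ U ∧ ∃ c : ℕ, U ^ (c + 1) ≤ W * U ^ c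

theorem res_red_eqns_cite : True := by
  have := @ResRed.eq_1
  trivial

theorem res_red_refl (U : Submodule ℂ B) : ResRed U U := ⟨le_rfl, 0, by simp⟩

theorem res_red_pow {W U : Submodule ℂ B} {c : ℕ} (h : U ^ (c + 1) ≤ W * U ^ c) (q : ℕ) :
    U ^ (c + q) ≤ W ^ q * U ^ c := by
  induction q with
  | zero => simp
  | succ q ih =>
    calc U ^ (c + (q + 1)) = U ^ (c + q) * U := by rw [← add_assoc, pow_succ]
      _ ≤ (W ^ q * U ^ c) * U := mul_le_mul' ih le_rfl
      _ = W ^ q * U ^ (c + 1) := by rw [mul_assoc, pow_succ]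
      _ ≤ W ^ q * (W * U ^ c) := mul_le_mul' le_rfl h
      _ = W ^ (q + 1) * U ^ c := by rw [← mul_assoc, pow_succ]

theorem res_red_trans {W' W U : Submodule ℂ B} (h' : ResRed W' W) (h : ResRed W U) : ResRed W' U := by
  obtain ⟨hW', c', hc'⟩ := h'
  obtain ⟨hW, c, hc⟩ := h
  refine ⟨hW'.trans hW, c + c', ?_⟩
  calc U ^ (c + c' + 1) = U ^ (c + (c' + 1)) := by rw [add_assoc]
    _ ≤ W ^ (c' + 1) * U ^ c := res_red_pow hc _
    _ ≤ (W' * W ^ c') * U ^ c := mul_le_mul' hc' le_rfl
    _ ≤ (W' * U ^ c') * U ^ c :=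
        mul_le_mul' (mul_le_mul' le_rfl (pow_le_pow_left' hW c')) le_rfl
    _ = W' * U ^ (c + c') := by rw [mul_assoc, ← pow_add, add_comm]

/-- the operator `T_m G = lam i0^m • G(w) - G(lam) • (w i0)^m` -/
noncomputable def resT {r : ℕ} (w : Fin r → B) (lam : Fin r → ℂ) (i0 : Fin r) (m : ℕ) :
    MvPolynomial (Fin r) ℂ →ₗ[ℂ] B :=
  (lam i0 ^ m) • (aeval w).toLinearMap - ((aeval lam).toLinearMap).smulRight (w i0 ^ m)

theorem res_T_eqns_cite : True := by
  have := @resT.eq_1
  trivial

theorem res_T_apply {r : ℕ} (w : Fin r → B) (lam : Fin r → ℂ) (i0 : Fin r) (m : ℕ)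
    (G : MvPolynomial (Fin r) ℂ) :
    resT w lam i0 m G = (lam i0 ^ m) • aeval w G - (aeval lam G) • (w i0 ^ m) := rfl

theorem res_T_mul {r : ℕ} (w : Fin r → B) (lam : Fin r → ℂ) (i0 : Fin r) (m : ℕ)
    (G₁ G₂ : MvPolynomial (Fin r) ℂ) :
    resT w lam i0 (m + 1) (G₁ * G₂) =
      resT w lam i0 1 G₁ * ((lam i0 ^ m) • aeval w G₂) +
        (aeval lam G₁) • (w i0 * resT w lam i0 m G₂) := by
  simp only [res_T_apply, map_mul, pow_one, Algebra.smul_def, map_pow, map_mul]
  ring

/-- `T_(m+1)` maps the homogeneous polynomials of degree `m+1` to `W' * W^m` -/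
theorem res_T_mem {r : ℕ} (w : Fin r → B) (lam : Fin r → ℂ) (i0 : Fin r) (m : ℕ)
    (G : MvPolynomial (Fin r) ℂ) (hG : G.IsHomogeneous (m + 1)) :
    resT w lam i0 (m + 1) G ∈
      Submodule.span ℂ (Set.range fun i => lam i0 • w i - lam i • w i0) *
        (Submodule.span ℂ (Set.range w)) ^ m := by
  have h1 : homogeneousSubmodule (Fin r) ℂ 1 ≤ Submodule.comap (resT w lam i0 1)
      (Submodule.span ℂ (Set.range fun i => lam i0 • w i - lam i • w i0)) := by
    rw [homogeneousSubmodule_one_eq_span_X, Submodule.span_le]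
    rintro _ ⟨i, rfl⟩
    refine Submodule.subset_span ⟨i, ?_⟩
    simp [res_T_apply]
  have hi0 : w i0 ∈ Submodule.span ℂ (Set.range w) := Submodule.subset_span ⟨i0, rfl⟩
  induction m generalizing G with
  | zero =>
    rw [pow_zero, mul_one]
    exact h1 hG
  | succ m ih =>
    have hle : homogeneousSubmodule (Fin r) ℂ (m + 1 + 1) ≤ Submodule.comap (resT w lam i0 (m + 1 + 1))
        (Submodule.span ℂ (Set.range fun i => lam i0 • w i - lam i • w i0) *
          (Submodule.span ℂ (Set.range w)) ^ (m + 1)) := by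
      rw [← homogeneousSubmodule_one_pow ℂ (m + 1 + 1), pow_succ', homogeneousSubmodule_one_pow,
        Submodule.mul_le]
      intro G₁ hG₁ G₂ hG₂
      rw [Submodule.mem_comap, res_T_mul]
      refine Submodule.add_mem _ (Submodule.mul_mem_mul (h1 hG₁) (Submodule.smul_mem _ _ ?_))
        (Submodule.smul_mem _ _ ?_)
      · exact (res_mem_span_pow w (m + 1) _).2 ⟨G₂, hG₂, rfl⟩
      · have h2 := Submodule.mul_mem_mul (ih G₂ hG₂) hi0
        rw [mul_assoc, ← pow_succ] at h2
        rw [mul_comm (w i0)]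
        exact h2
    exact hle hG

/-- ONE STEP of the Noether normalisation -/
theorem res_red_step [IsDomain B] {r : ℕ} (w : Fin r → B) (hli : LinearIndependent ℂ w)
    (hw : ¬ HomIndep w) :
    ∃ W' : Submodule ℂ B, W' < Submodule.span ℂ (Set.range w) ∧
      ResRed W' (Submodule.span ℂ (Set.range w)) := by
  unfold HomIndep at hw
  push Not at hw
  obtain ⟨e, Q, hQ, hQ0, hQne⟩ := hw
  -- a point where `Q` does not vanish
  obtain ⟨lam, hlam⟩ : ∃ lam : Fin r → ℂ, eval lam Q ≠ 0 := by
    by_contra hcon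
    push Not at hcon
    exact hQne (hQ.eq_zero_of_forall_eval_eq_zero hcon)
  have hlam' : aeval lam Q ≠ 0 := hlam
  -- the degree is positive
  obtain ⟨m, rfl⟩ : ∃ m, e = m + 1 := by
    rcases e with _ | m
    · exfalso
      have hC : Q = C (coeff 0 Q) := by
        have := (totalDegree_eq_zero_iff_eq_C (p := Q)).1 ((totalDegree_zero_iff_isHomogeneous _).2 hQ)
        exact this
      rw [hC, aeval_C] at hQ0
      have h0 : coeff 0 Q = 0 := by
        have hinj : Function.Injective (algebraMap ℂ B) := (algebraMap ℂ B).injective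
        exact hinj (by rw [hQ0, map_zero])
      rw [h0, map_zero] at hC
      exact hQne hC
    · exact ⟨m, rfl⟩
  -- a nonzero coordinate
  obtain ⟨i0, hi0⟩ : ∃ i0, lam i0 ≠ 0 := by
    by_contra hcon
    push Not at hcon
    have h0 : lam = 0 := funext hcon
    apply hlam
    rw [h0, eval_zero, constantCoeff_eq]
    exact hQ.coeff_eq_zero (by simp)
  set W : Submodule ℂ B := Submodule.span ℂ (Set.range w) with hW
  set W' : Submodule ℂ B := Submodule.span ℂ (Set.range fun i => lam i0 • w i - lam i • w i0) with hW'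
  have hwW : ∀ i, w i ∈ W := fun i => Submodule.subset_span ⟨i, rfl⟩
  have hle : W' ≤ W := by
    rw [hW', Submodule.span_le]
    rintro _ ⟨i, rfl⟩
    exact W.sub_mem (W.smul_mem _ (hwW i)) (W.smul_mem _ (hwW i0))
  -- `(w i0)^(m+1) ∈ W' * W^m`
  have hpow : w i0 ^ (m + 1) ∈ W' * W ^ m := by
    have h1 := res_T_mem w lam i0 m Q hQ
    rw [res_T_apply, hQ0, smul_zero, zero_sub] at h1
    have h2 := (W' * W ^ m).smul_mem (-(aeval lam Q)⁻¹) h1
    rwa [smul_neg, neg_smul, neg_neg, smul_smul, inv_mul_cancel₀ hlam', one_smul] at h2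
  refine ⟨W', lt_of_le_of_ne hle ?_, hle, m, ?_⟩
  · -- `w i0 ∉ W'`
    intro heq
    have hmem : w i0 ∈ W' := heq ▸ hwW i0
    -- the functional `w i ↦ lam i`
    let b := Module.Basis.span hli
    let ℓ : W →ₗ[ℂ] ℂ := b.constr ℂ lam
    have hb : ∀ i, (b i : B) = w i := fun i => congrArg Subtype.val (Module.Basis.span_apply hli i)
    have hℓ : ∀ i, ℓ (b i) = lam i := fun i => b.constr_basis ℂ lam i
    have hker : W' ≤ Submodule.map W.subtype (LinearMap.ker ℓ) := by
      rw [hW', Submodule.span_le]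
      rintro _ ⟨i, rfl⟩
      refine ⟨lam i0 • b i - lam i • b i0, ?_, ?_⟩
      · show ℓ (lam i0 • b i - lam i • b i0) = 0
        rw [map_sub, map_smul, map_smul, hℓ, hℓ, smul_eq_mul, smul_eq_mul, mul_comm, sub_self]
      · simp [hb]
    obtain ⟨z, hz, hz'⟩ := hker hmem
    have hzb : z = b i0 := Subtype.ext (by rw [hb]; exact hz')
    rw [hzb] at hz
    have : ℓ (b i0) = 0 := hz
    rw [hℓ] at this
    exact hi0 this
  · intro z hz
    obtain ⟨G, hG, rfl⟩ := (res_mem_span_pow w (m + 1) z).1 hz
    have h1 := res_T_mem w lam i0 m G hG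
    rw [res_T_apply] at h1
    have h2 : (lam i0 ^ (m + 1)) • aeval w G ∈ W' * W ^ m := by
      have := (W' * W ^ m).add_mem h1 ((W' * W ^ m).smul_mem (aeval lam G) hpow)
      rwa [sub_add_cancel] at this
    have h3 := (W' * W ^ m).smul_mem ((lam i0 ^ (m + 1))⁻¹) h2
    rwa [smul_smul, inv_mul_cancel₀ (pow_ne_zero _ hi0), one_smul] at h3

/-- GRADED NOETHER NORMALISATION -/
theorem res_nn [IsDomain B] (U : Submodule ℂ B) [FiniteDimensional ℂ U] :
    ∃ (r : ℕ) (σ : Fin r → B), HomIndep σ ∧ ResRed (Submodule.span ℂ (Set.range σ)) U := by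
  have key : ∀ (n : ℕ) (W : Submodule ℂ B), finrank ℂ W = n → ResRed W U →
      ∃ (r : ℕ) (σ : Fin r → B), HomIndep σ ∧ ResRed (Submodule.span ℂ (Set.range σ)) U := by
    intro n
    induction n using Nat.strong_induction_on with
    | _ n ih =>
      intro W hn hWU
      have : FiniteDimensional ℂ W := Submodule.finiteDimensional_of_le hWU.1
      let b := Module.finBasis ℂ W
      have hli : LinearIndependent ℂ (fun i => (b i : B)) :=
        b.linearIndependent.map' W.subtype (Submodule.ker_subtype W)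
      have hspan : Submodule.span ℂ (Set.range fun i => (b i : B)) = W := by
        have h1 : (Set.range fun i => (b i : B)) = W.subtype '' Set.range b := by
          rw [← Set.range_comp]; rfl
        rw [h1, ← Submodule.map_span, b.span_eq, Submodule.map_top, Submodule.range_subtype]
      by_cases hH : HomIndep (fun i => (b i : B))
      · exact ⟨_, _, hH, by rw [hspan]; exact hWU⟩
      · obtain ⟨W', hlt, hred⟩ := res_red_step _ hli hH
        rw [hspan] at hlt hred
        exact ih (finrank ℂ W') (hn ▸ Submodule.finrank_lt_finrank_of_lt hlt) W' rfl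
          (res_red_trans hred hWU)
  exact key _ U rfl (res_red_refl U)

end Claimed.Agent.R242
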