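/-
R242 / Res / Glue : `res_main` and `res_upper` from the sandwich.     helper299.

 * `res_mono`          `finrank (S h) ≤ finrank (S (h + b))` for `b ≥ b₀`  (multiplication by a nonzero element of `S b`)
 * `res_span_pow_le`   `(span σ)^q ≤ S (q k')` for `q ≥ 1`
 * `res_homIndep_le`   `choose (q + d) d ≤ finrank (S (q k'))` for `q ≥ 1`
 * `ResSandStmt`       the statement of the sandwich (to be proved in `Res/Sand.lean`)
 * `res_main_of_sand`, `res_upper_of_sand`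
-/
import Claimed.Agent.R242.Res.Red
import Claimed.Agent.R242.Res.Num

set_option autoImplicit false

namespace Claimed.Agent.R242

open Module

section

variable {B : Type} [CommRing B] [IsDomain B] [Algebra ℂ B] {S : ℕ → Submodule ℂ B}

/-- multiplication by a nonzero element -/
theorem res_finrank_le_of_mul {V V' : Submodule ℂ B} [FiniteDimensional ℂ V'] {g : B} (hg : g ≠ 0)
    (h : ∀ x ∈ V, g * x ∈ V') : finrank ℂ V ≤ finrank ℂ V' := by
  let f : V →ₗ[ℂ] V' := ((LinearMap.mulLeft ℂ g).domRestrict V).codRestrict V' fun x => h x x.2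
  have hf : Function.Injective f := by
    intro x y hxy
    have h1 : g * (x : B) = g * (y : B) := congrArg Subtype.val hxy
    exact Subtype.ext (mul_left_cancel₀ hg h1)
  exact LinearMap.finrank_le_finrank_of_injective hf

theorem res_mono {k e₀ b₀ n : ℕ} (hS : ResHyp B S k e₀ b₀ n) (h b : ℕ) (hb : b₀ ≤ b) :
    finrank ℂ (S h) ≤ finrank ℂ (S (h + b)) := by
  have := hS.fin (h + b)
  obtain ⟨g, hg, hg0⟩ := (Submodule.ne_bot_iff _).1 (hS.h2 b hb)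
  refine res_finrank_le_of_mul hg0 fun x hx => ?_
  rw [add_comm h b]
  exact hS.mul b h (Submodule.mul_mem_mul hg hx)

omit [IsDomain B] in
theorem res_span_pow_le (mul : ∀ i j, S i * S j ≤ S (i + j)) {r k' : ℕ} (σ : Fin r → B)
    (hσ : ∀ i, σ i ∈ S k') (q : ℕ) :
    (Submodule.span ℂ (Set.range σ)) ^ (q + 1) ≤ S ((q + 1) * k') := by
  have h1 : Submodule.span ℂ (Set.range σ) ≤ S k' := by
    rw [Submodule.span_le]
    rintro _ ⟨i, rfl⟩
    exact hσ i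
  induction q with
  | zero => simpa using h1
  | succ q ih =>
    calc (Submodule.span ℂ (Set.range σ)) ^ (q + 1 + 1)
        = (Submodule.span ℂ (Set.range σ)) ^ (q + 1) * Submodule.span ℂ (Set.range σ) := pow_succ _ _
      _ ≤ S ((q + 1) * k') * S k' := mul_le_mul' ih h1
      _ ≤ S ((q + 1) * k' + k') := mul _ _
      _ = S ((q + 1 + 1) * k') := by congr 1; ring

omit [IsDomain B] in
theorem res_homIndep_le (fin : ∀ j, FiniteDimensional ℂ (S j)) (mul : ∀ i j, S i * S j ≤ S (i + j))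
    {d k' : ℕ} (σ : Fin (d + 1) → B) (hσ : ∀ i, σ i ∈ S k') (hI : HomIndep σ) (q : ℕ) (hq : 1 ≤ q) :
    (q + d).choose d ≤ finrank ℂ (S (q * k')) := by
  obtain ⟨q, rfl⟩ : ∃ q', q = q' + 1 := ⟨q - 1, by omega⟩
  have := fin ((q + 1) * k')
  rw [← res_finrank_pow σ hI (q + 1)]
  exact Submodule.finrank_mono (res_span_pow_le mul σ hσ q)

end

/-- the statement of the sandwich -/
def ResSandStmt : Prop :=
  ∀ (B : Type) [CommRing B] [IsDomain B] [Algebra ℂ B] (S : ℕ → Submodule ℂ B) (κ e₀ n : ℕ),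
    (∀ j, FiniteDimensional ℂ (S j)) → (∀ i j, S i * S j ≤ S (i + j)) →
    (∀ q, e₀ ≤ q → S ((q + 1) * κ) ≤ S κ * S (q * κ)) →
    (∀ q, ∃ q', q ≤ q' ∧ S (q' * κ) ≠ ⊥) →
    (∀ j (σ : Fin (n + 2) → B), (∀ i, σ i ∈ S j) → ¬ HomIndep σ) →
    ResSand (fun h => finrank ℂ (S h)) κ e₀ n

theorem res_hne {B : Type} [CommRing B] [Algebra ℂ B] {S : ℕ → Submodule ℂ B} {k e₀ b₀ n : ℕ}
    (hS : ResHyp B S k e₀ b₀ n) (κ : ℕ) (hκ : 1 ≤ κ) (q : ℕ) : ∃ q', q ≤ q' ∧ S (q' * κ) ≠ ⊥ :=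
  ⟨q + b₀, by omega, hS.h2 _ (le_trans (by omega) (Nat.le_mul_of_pos_right (q + b₀) hκ))⟩

theorem res_main_of_sand (hsand : ResSandStmt) (k e₀ b₀ n : ℕ) (hk : 1 ≤ k) :
    ∃ (C : ℝ) (H : ℕ), ∀ (B : Type) [CommRing B] [IsDomain B] [Algebra ℂ B] (S : ℕ → Submodule ℂ B),
      ResHyp B S k e₀ b₀ n → ∀ (d : ℕ), 1 ≤ d → ∀ (k' : ℕ) (σ : Fin (d + 1) → B), (∀ i, σ i ∈ S k') → HomIndep σ →
      ∀ h : ℕ, H ≤ h → (h : ℝ) - C ≤ ((d.factorial : ℝ) * finrank ℂ (S h)) ^ (1 / (d : ℝ)) := by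
  obtain ⟨C, H, hCH⟩ := res_num_main k e₀ b₀ n hk
  refine ⟨C, H, ?_⟩
  intro B _ _ _ S hS d hd k' σ hσ hI h hh
  exact hCH (fun h => finrank ℂ (S h)) (res_mono hS)
    (hsand B S k e₀ n hS.fin hS.mul hS.h1 (res_hne hS k hk) hS.h3b)
    (hsand B S (k + 1) e₀ n hS.fin hS.mul hS.h1' (res_hne hS (k + 1) (by omega)) hS.h3b)
    d hd k' (res_homIndep_le hS.fin hS.mul σ hσ hI) h hh

theorem res_upper_of_sand (hsand : ResSandStmt) (k e₀ b₀ n : ℕ) (hk : 1 ≤ k) (B : Type) [CommRing B]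
    [IsDomain B] [Algebra ℂ B] (S : ℕ → Submodule ℂ B) (hS : ResHyp B S k e₀ b₀ n) :
    ∃ CN : ℝ, ∀ j : ℕ, 1 ≤ j → (finrank ℂ (S j) : ℝ) ≤ CN * (j : ℝ) ^ n :=
  res_num_upper k e₀ b₀ n hk (fun h => finrank ℂ (S h)) (res_mono hS)
    (hsand B S k e₀ n hS.fin hS.mul hS.h1 (res_hne hS k hk) hS.h3b)

end Claimed.Agent.R242
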