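/-
R242 / Res / Sand : THE SANDWICH for one `κ`.   Owner: helper231.   Prefix `res_` / `res`.

`B` a domain over `ℂ`, `F = FractionRing B`, `S : ℕ → Submodule ℂ B`, `U = S κ`, `W ≤ U` a reduction (`U^(c+1) ≤ W * U^c`), `s0 ∈ W`, `s0 ≠ 0`.
* `resK W`      the field `K0 = {p/g : p, g ∈ W^e, g ≠ 0}` (an `IntermediateField ℂ F`)
* `resPhi g`    the `ℂ`-linear map `s ↦ s/g`, `B → F`
* `resM .. j`   `M_j` = the `K0`-span of `S (j κ) / s0^j`
  `M_j ≤ M_(j+1)`, `M_i M_j ≤ M_(i+j)`, `M_(j+1) ≤ M_1 M_j` for `j ≥ e₀`, `M_(e₀+c+q) = M_(e₀+c)`; `D = dim_K0 M_(e₀+c)`.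
* chain argument `res_M_rank`: `D0 ≤ D ⟹ D0 ≤ dim M_(e₀+D0-1)`.
* `res_low`: `D0 ≤ dim M_j ⟹ D0 * dim W^q ≤ dim S ((j+q) κ)`       (`(W^q)^D0 → S`, `f ↦ ∑ f_i ω_i` is injective)
* `res_up` : `dim S ((e₀+c+q) κ) ≤ D * dim W^(q+e)`                  (common denominator `g ∈ W^e`: `g S (j1 κ) ⊆ W^e Ω`, `Ω = span ω`)
* `res_sandwich`.
-/
import Claimed.Agent.R242.Res.Red

set_option autoImplicit false
set_option linter.unusedSectionVars false

namespace Claimed.Agent.R242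

open Module

variable {B : Type} [CommRing B] [IsDomain B] [Algebra ℂ B]

/-- the degree zero part of the homogeneous fraction field of `ℂ[W]` -/
def resK (W : Submodule ℂ B) : IntermediateField ℂ (FractionRing B) where
  carrier := {z | ∃ (e : ℕ) (p g : B), p ∈ W ^ e ∧ g ∈ W ^ e ∧ g ≠ 0 ∧
    z = algebraMap B (FractionRing B) p / algebraMap B (FractionRing B) g}
  mul_mem' := by
    rintro _ _ ⟨e, p, g, hp, hg, hg0, rfl⟩ ⟨e', p', g', hp', hg', hg0', rfl⟩
    refine ⟨e + e', p * p', g * g', ?_, ?_, mul_ne_zero hg0 hg0', ?_⟩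
    · rw [pow_add]; exact Submodule.mul_mem_mul hp hp'
    · rw [pow_add]; exact Submodule.mul_mem_mul hg hg'
    · rw [map_mul, map_mul, div_mul_div_comm]
  add_mem' := by
    rintro _ _ ⟨e, p, g, hp, hg, hg0, rfl⟩ ⟨e', p', g', hp', hg', hg0', rfl⟩
    refine ⟨e + e', p * g' + g * p', g * g', ?_, ?_, mul_ne_zero hg0 hg0', ?_⟩
    · rw [pow_add]
      exact Submodule.add_mem _ (Submodule.mul_mem_mul hp hg') (Submodule.mul_mem_mul hg hp')
    · rw [pow_add]; exact Submodule.mul_mem_mul hg hg'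
    · have h1 : algebraMap B (FractionRing B) g ≠ 0 := by
        simpa using hg0
      have h2 : algebraMap B (FractionRing B) g' ≠ 0 := by
        simpa using hg0'
      rw [map_add, map_mul, map_mul, map_mul, div_add_div _ _ h1 h2]
  algebraMap_mem' := by
    intro r
    refine ⟨0, algebraMap ℂ B r, 1, ?_, ?_, one_ne_zero, ?_⟩
    · rw [pow_zero]; exact Submodule.algebraMap_mem r
    · rw [pow_zero]; exact Submodule.one_le.1 le_rfl
    · rw [map_one, div_one]; exact IsScalarTower.algebraMap_apply ℂ B (FractionRing B) r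
  inv_mem' := by
    rintro _ ⟨e, p, g, hp, hg, hg0, rfl⟩
    by_cases hp0 : p = 0
    · refine ⟨0, 0, 1, Submodule.zero_mem _, ?_, one_ne_zero, ?_⟩
      · rw [pow_zero]; exact Submodule.one_le.1 le_rfl
      · rw [hp0]; simp
    · exact ⟨e, g, p, hg, hp, hp0, by rw [inv_div]⟩

theorem res_mem_K (W : Submodule ℂ B) {e : ℕ} {p g : B} (hp : p ∈ W ^ e) (hg : g ∈ W ^ e) (hg0 : g ≠ 0) :
    algebraMap B (FractionRing B) p / algebraMap B (FractionRing B) g ∈ resK W :=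
  ⟨e, p, g, hp, hg, hg0, rfl⟩

theorem res_mem_K_iff (W : Submodule ℂ B) (z : FractionRing B) :
    z ∈ resK W ↔ ∃ (e : ℕ) (p g : B), p ∈ W ^ e ∧ g ∈ W ^ e ∧ g ≠ 0 ∧
      z = algebraMap B (FractionRing B) p / algebraMap B (FractionRing B) g := Iff.rfl

/-- `s ↦ s / g` -/
noncomputable def resPhi (g : B) : B →ₗ[ℂ] FractionRing B :=
  (LinearMap.mulLeft ℂ (algebraMap B (FractionRing B) g)⁻¹) ∘ₗ
    (IsScalarTower.toAlgHom ℂ B (FractionRing B)).toLinearMap

theorem res_phi_apply (g s : B) :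
    resPhi g s = (algebraMap B (FractionRing B) g)⁻¹ * algebraMap B (FractionRing B) s := rfl

/-- `M_j` -/
noncomputable def resM (S : ℕ → Submodule ℂ B) (κ : ℕ) (W : Submodule ℂ B) (s0 : B) (j : ℕ) :
    Submodule (resK W) (FractionRing B) :=
  Submodule.span (resK W) (Submodule.map (resPhi (s0 ^ j)) (S (j * κ)) : Set (FractionRing B))

theorem res_sand_eqns_cite : True := by
  have := @resK.eq_1
  have := @resPhi.eq_1
  have := @resM.eq_1
  trivial

theorem res_phi_inj {g : B} (hg : g ≠ 0) : Function.Injective (resPhi g) := by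
  intro a b hab
  rw [res_phi_apply, res_phi_apply] at hab
  have h1 : (algebraMap B (FractionRing B) g)⁻¹ ≠ 0 := by
    simpa using hg
  exact IsFractionRing.injective B (FractionRing B) (mul_left_cancel₀ h1 hab)

/-- the setting of the sandwich -/
structure ResSet (S : ℕ → Submodule ℂ B) (κ e₀ c : ℕ) (W : Submodule ℂ B) (s0 : B) : Prop where
  fin : ∀ j, FiniteDimensional ℂ (S j)
  mul : ∀ i j, S i * S j ≤ S (i + j)
  h1 : ∀ q, e₀ ≤ q → S ((q + 1) * κ) ≤ S κ * S (q * κ)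
  hW : W ≤ S κ
  red : (S κ) ^ (c + 1) ≤ W * (S κ) ^ c
  hs0 : s0 ∈ W
  hs0' : s0 ≠ 0

section Setting

variable {S : ℕ → Submodule ℂ B} {κ e₀ c : ℕ} {W : Submodule ℂ B} {s0 : B}

theorem res_phi_mul (g g' a b : B) : resPhi g a * resPhi g' b = resPhi (g * g') (a * b) := by
  simp only [res_phi_apply, map_mul, mul_inv]
  ring

theorem res_phi_cancel {g t : B} (ht : t ≠ 0) (a : B) : resPhi (g * t) (a * t) = resPhi g a := by
  have h1 : algebraMap B (FractionRing B) t ≠ 0 := by simpa using ht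
  simp only [res_phi_apply, map_mul, mul_inv]
  field_simp

theorem res_M_mem (j : ℕ) {s : B} (hs : s ∈ S (j * κ)) : resPhi (s0 ^ j) s ∈ resM S κ W s0 j :=
  Submodule.subset_span ⟨s, hs, rfl⟩

theorem res_M_le (j : ℕ) (N : Submodule (resK W) (FractionRing B))
    (h : ∀ s ∈ S (j * κ), resPhi (s0 ^ j) s ∈ N) : resM S κ W s0 j ≤ N := by
  refine Submodule.span_le.2 ?_
  rintro _ ⟨s, hs, rfl⟩
  exact h s hs

theorem ResSet.mul_mem (H : ResSet S κ e₀ c W s0) {i j : ℕ} {a b : B} (ha : a ∈ S i) (hb : b ∈ S j) :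
    a * b ∈ S (i + j) := H.mul i j (Submodule.mul_mem_mul ha hb)

theorem ResSet.s0_mem (H : ResSet S κ e₀ c W s0) : s0 ∈ S κ := H.hW H.hs0

/-- `a ∈ S i ⟹ a s0^m ∈ S (i + m κ)` -/
theorem ResSet.mul_pow_mem (H : ResSet S κ e₀ c W s0) {i : ℕ} {a : B} (ha : a ∈ S i) (m : ℕ) :
    a * s0 ^ m ∈ S (i + m * κ) := by
  induction m with
  | zero => simpa using ha
  | succ m ih =>
    have h := H.mul_mem ih H.s0_mem
    have e : i + m * κ + κ = i + (m + 1) * κ := by ring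
    rw [e, mul_assoc, ← pow_succ] at h
    exact h

theorem res_M_mono (H : ResSet S κ e₀ c W s0) (j : ℕ) :
    resM S κ W s0 j ≤ resM S κ W s0 (j + 1) := by
  refine res_M_le j _ fun s hs => ?_
  have h := H.mul_mem hs H.s0_mem
  have e : j * κ + κ = (j + 1) * κ := by ring
  rw [e] at h
  have h2 := res_M_mem (W := W) (s0 := s0) (j + 1) h
  rwa [pow_succ, res_phi_cancel H.hs0'] at h2

theorem res_M_mono' (H : ResSet S κ e₀ c W s0) {i j : ℕ} (hij : i ≤ j) :
    resM S κ W s0 i ≤ resM S κ W s0 j := by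
  induction j, hij using Nat.le_induction with
  | base => exact le_rfl
  | succ j _ ih => exact ih.trans (res_M_mono H j)

theorem res_M_mul (H : ResSet S κ e₀ c W s0) (i j : ℕ) :
    resM S κ W s0 i * resM S κ W s0 j ≤ resM S κ W s0 (i + j) := by
  unfold resM
  rw [Submodule.span_mul_span, Submodule.span_le]
  rintro _ ⟨_, ⟨a, ha, rfl⟩, _, ⟨b, hb, rfl⟩, rfl⟩
  have h := H.mul_mem ha hb
  have e : i * κ + j * κ = (i + j) * κ := by ring
  rw [e] at h
  show resPhi (s0 ^ i) a * resPhi (s0 ^ j) b ∈ _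
  rw [res_phi_mul, ← pow_add]
  exact Submodule.subset_span ⟨_, h, rfl⟩

theorem res_M_succ (H : ResSet S κ e₀ c W s0) {j : ℕ} (hj : e₀ ≤ j) :
    resM S κ W s0 (j + 1) ≤ resM S κ W s0 1 * resM S κ W s0 j := by
  refine res_M_le (j + 1) _ fun s hs => ?_
  refine Submodule.mul_induction_on (H.h1 j hj hs) (fun a ha b hb => ?_) (fun x y hx hy => ?_)
  · have ha' : a ∈ S (1 * κ) := by rwa [one_mul]
    have h := Submodule.mul_mem_mul (res_M_mem (W := W) (s0 := s0) 1 ha')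
      (res_M_mem (W := W) (s0 := s0) j hb)
    rwa [res_phi_mul, ← pow_add, add_comm 1 j] at h
  · rw [map_add]; exact Submodule.add_mem _ hx hy

theorem res_M_fin (H : ResSet S κ e₀ c W s0) (j : ℕ) :
    FiniteDimensional (resK W) (resM S κ W s0 j) := by
  have hfg : (S (j * κ)).FG := (Submodule.fg_iff_finiteDimensional _).2 (H.fin _)
  obtain ⟨T, hT⟩ := hfg
  have e : resM S κ W s0 j = Submodule.span (resK W) (resPhi (s0 ^ j) '' (T : Set B)) := by
    unfold resM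
    rw [← hT, Submodule.map_span, Submodule.span_span_of_tower]
  rw [e]
  exact FiniteDimensional.span_of_finite _ (T.finite_toSet.image _)

/-- `U^m * S (j κ) ≤ S ((m + j) κ)` -/
theorem ResSet.pow_mul_le (H : ResSet S κ e₀ c W s0) (m j : ℕ) :
    (S κ) ^ m * S (j * κ) ≤ S ((m + j) * κ) := by
  induction m with
  | zero => simp
  | succ m ih =>
    calc (S κ) ^ (m + 1) * S (j * κ) = S κ * ((S κ) ^ m * S (j * κ)) := by rw [pow_succ', mul_assoc]
      _ ≤ S κ * S ((m + j) * κ) := mul_le_mul' le_rfl ih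
      _ ≤ S (κ + (m + j) * κ) := H.mul _ _
      _ = S ((m + 1 + j) * κ) := by congr 1; ring

/-- `S ((e₀ + q) κ) ≤ U^q * S (e₀ κ)` -/
theorem ResSet.le_pow_mul (H : ResSet S κ e₀ c W s0) (q : ℕ) :
    S ((e₀ + q) * κ) ≤ (S κ) ^ q * S (e₀ * κ) := by
  induction q with
  | zero => simp
  | succ q ih =>
    calc S ((e₀ + (q + 1)) * κ) = S ((e₀ + q + 1) * κ) := by rw [add_assoc]
      _ ≤ S κ * S ((e₀ + q) * κ) := H.h1 _ (Nat.le_add_right _ _)
      _ ≤ S κ * ((S κ) ^ q * S (e₀ * κ)) := mul_le_mul' le_rfl ih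
      _ = (S κ) ^ (q + 1) * S (e₀ * κ) := by rw [pow_succ', mul_assoc]

/-- FINITE GENERATION over `W` -/
theorem ResSet.fg (H : ResSet S κ e₀ c W s0) (q : ℕ) :
    S ((e₀ + c + q) * κ) ≤ W ^ q * S ((e₀ + c) * κ) := by
  calc S ((e₀ + c + q) * κ) = S ((e₀ + (c + q)) * κ) := by rw [add_assoc]
    _ ≤ (S κ) ^ (c + q) * S (e₀ * κ) := H.le_pow_mul _
    _ ≤ (W ^ q * (S κ) ^ c) * S (e₀ * κ) := mul_le_mul' (res_red_pow H.red q) le_rfl
    _ = W ^ q * ((S κ) ^ c * S (e₀ * κ)) := mul_assoc _ _ _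
    _ ≤ W ^ q * S ((c + e₀) * κ) := mul_le_mul' le_rfl (H.pow_mul_le c e₀)
    _ = W ^ q * S ((e₀ + c) * κ) := by rw [add_comm c e₀]

theorem ResSet.s0_pow_mem (H : ResSet S κ e₀ c W s0) (q : ℕ) : s0 ^ q ∈ W ^ q :=
  Submodule.pow_mem_pow W H.hs0 q

/-- STABILISATION -/
theorem res_M_stab (H : ResSet S κ e₀ c W s0) (q : ℕ) :
    resM S κ W s0 (e₀ + c + q) ≤ resM S κ W s0 (e₀ + c) := by
  refine res_M_le _ _ fun s hs => ?_
  refine Submodule.mul_induction_on (H.fg q hs) (fun f hf u hu => ?_) (fun x y hx hy => ?_)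
  · have h1 : resPhi (s0 ^ (e₀ + c + q)) (f * u) = resPhi (s0 ^ q) f * resPhi (s0 ^ (e₀ + c)) u := by
      rw [res_phi_mul, ← pow_add, add_comm q]
    have h2 : resPhi (s0 ^ q) f ∈ resK W := by
      rw [res_phi_apply, mul_comm, ← div_eq_mul_inv]
      exact res_mem_K W hf (H.s0_pow_mem q) (pow_ne_zero _ H.hs0')
    rw [h1]
    exact (resM S κ W s0 (e₀ + c)).smul_mem ⟨_, h2⟩ (res_M_mem (e₀ + c) hu)
  · rw [map_add]; exact Submodule.add_mem _ hx hy

theorem res_M_stab' (H : ResSet S κ e₀ c W s0) {j : ℕ} (hj : e₀ + c ≤ j) :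
    resM S κ W s0 j = resM S κ W s0 (e₀ + c) := by
  obtain ⟨q, rfl⟩ := Nat.exists_eq_add_of_le hj
  exact le_antisymm (res_M_stab H q) (res_M_mono' H hj)

/-- the CHAIN argument -/
theorem res_M_chain (H : ResSet S κ e₀ c W s0) {j : ℕ} (hj : e₀ ≤ j)
    (h : resM S κ W s0 (j + 1) = resM S κ W s0 j) (q : ℕ) :
    resM S κ W s0 (j + q) = resM S κ W s0 j := by
  induction q with
  | zero => rfl
  | succ q ih =>
    refine le_antisymm ?_ (res_M_mono' H (Nat.le_add_right _ _))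
    calc resM S κ W s0 (j + (q + 1)) = resM S κ W s0 (j + q + 1) := by rw [add_assoc]
      _ ≤ resM S κ W s0 1 * resM S κ W s0 (j + q) := res_M_succ H (hj.trans (Nat.le_add_right _ _))
      _ = resM S κ W s0 1 * resM S κ W s0 j := by rw [ih]
      _ ≤ resM S κ W s0 (1 + j) := res_M_mul H 1 j
      _ = resM S κ W s0 j := by rw [add_comm, h]

/-- `S (e₀ κ) ≠ 0` -/
theorem ResSet.ne_bot (H : ResSet S κ e₀ c W s0) : ∃ s ∈ S (e₀ * κ), s ≠ 0 := by
  by_contra hcon
  push Not at hcon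
  have hbot : S (e₀ * κ) = ⊥ := (Submodule.eq_bot_iff _).2 hcon
  have h1 := H.h1 e₀ le_rfl
  rw [hbot, Submodule.mul_bot, le_bot_iff] at h1
  have h2 : s0 * s0 ^ e₀ ∈ S (κ + e₀ * κ) := H.mul_pow_mem H.s0_mem e₀
  have e : κ + e₀ * κ = (e₀ + 1) * κ := by ring
  rw [e, h1, Submodule.mem_bot] at h2
  exact mul_ne_zero H.hs0' (pow_ne_zero _ H.hs0') h2

theorem res_M_rank_pos (H : ResSet S κ e₀ c W s0) {j : ℕ} (hj : e₀ ≤ j) :
    1 ≤ finrank (resK W) (resM S κ W s0 j) := by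
  have := res_M_fin H j
  obtain ⟨s, hs, hs0⟩ := H.ne_bot
  have hmem : resPhi (s0 ^ e₀) s ∈ resM S κ W s0 j := res_M_mono' H hj (res_M_mem e₀ hs)
  have hne : resPhi (s0 ^ e₀) s ≠ 0 := by
    intro h0
    exact hs0 (res_phi_inj (pow_ne_zero _ H.hs0') (by rw [h0, map_zero]))
  have hnb : resM S κ W s0 j ≠ ⊥ := fun hb => hne (by rw [hb] at hmem; exact hmem)
  exact Nat.one_le_iff_ne_zero.2 (fun h0 => hnb (Submodule.finrank_eq_zero.1 h0))

/-- the ranks grow strictly until they reach `D` -/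
theorem res_M_rank (H : ResSet S κ e₀ c W s0) (D0 : ℕ) (h1 : 1 ≤ D0)
    (hD : D0 ≤ finrank (resK W) (resM S κ W s0 (e₀ + c))) :
    D0 ≤ finrank (resK W) (resM S κ W s0 (e₀ + D0 - 1)) := by
  induction D0, h1 using Nat.le_induction with
  | base => exact res_M_rank_pos H (by omega)
  | succ D0 h1 ih =>
    have ih' := ih (by omega)
    obtain ⟨j, hj⟩ : ∃ j, j = e₀ + D0 - 1 := ⟨_, rfl⟩
    have e : e₀ + (D0 + 1) - 1 = j + 1 := by omega
    rw [← hj] at ih'
    rw [e]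
    by_contra hcon
    have := res_M_fin H (j + 1)
    have hmono : finrank (resK W) (resM S κ W s0 j) ≤ finrank (resK W) (resM S κ W s0 (j + 1)) :=
      Submodule.finrank_mono (res_M_mono H j)
    have heq : resM S κ W s0 j = resM S κ W s0 (j + 1) :=
      Submodule.eq_of_le_of_finrank_eq (res_M_mono H j) (by omega)
    have hst := res_M_chain H (j := j) (by omega) heq.symm (e₀ + c)
    rw [res_M_stab' H (by omega)] at hst
    rw [hst] at hD
    omega

theorem res_W_fin (H : ResSet S κ e₀ c W s0) (q : ℕ) : FiniteDimensional ℂ (W ^ q : Submodule ℂ B) := by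
  have := H.fin κ
  have hW : FiniteDimensional ℂ W := Submodule.finiteDimensional_of_le H.hW
  exact (Submodule.fg_iff_finiteDimensional _).1
    (((Submodule.fg_iff_finiteDimensional _).2 hW).pow q)

/-- `W^q * S (j κ) ≤ S ((j + q) κ)` -/
theorem ResSet.W_pow_mul_le (H : ResSet S κ e₀ c W s0) (q j : ℕ) :
    W ^ q * S (j * κ) ≤ S ((j + q) * κ) := by
  calc W ^ q * S (j * κ) ≤ (S κ) ^ q * S (j * κ) := mul_le_mul' (pow_le_pow_left' H.hW q) le_rfl
    _ ≤ S ((q + j) * κ) := H.pow_mul_le q j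
    _ = S ((j + q) * κ) := by rw [add_comm]

/-- THE LOWER BOUND -/
theorem res_low (H : ResSet S κ e₀ c W s0) (j D0 : ℕ)
    (hD : D0 ≤ finrank (resK W) (resM S κ W s0 j)) (q : ℕ) :
    D0 * finrank ℂ (W ^ q : Submodule ℂ B) ≤ finrank ℂ (S ((j + q) * κ)) := by
  have hfinM : Module.Finite (resK W) (Submodule.span (resK W)
      (Submodule.map (resPhi (s0 ^ j)) (S (j * κ)) : Set (FractionRing B))) := res_M_fin H j
  have hfinW := res_W_fin H q
  have hfinS := H.fin ((j + q) * κ)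
  unfold resM at hD
  obtain ⟨f, hf, -, hli⟩ := Submodule.exists_fun_fin_finrank_span_eq (resK W)
    (Submodule.map (resPhi (s0 ^ j)) (S (j * κ)) : Set (FractionRing B))
  choose ω hω hωf using hf
  -- restrict to the first `D0` elements
  let em : Fin D0 → Fin (finrank (resK W) (Submodule.span (resK W)
      (Submodule.map (resPhi (s0 ^ j)) (S (j * κ)) : Set (FractionRing B)))) := Fin.castLE hD
  have hli' : LinearIndependent (resK W) (fun i : Fin D0 => resPhi (s0 ^ j) (ω (em i))) := by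
    have h1 := hli.comp em (Fin.castLE_injective hD)
    have h2 : (f ∘ em) = fun i : Fin D0 => resPhi (s0 ^ j) (ω (em i)) := by
      funext i
      exact (hωf (em i)).symm
    rwa [h2] at h1
  let Φ : (Fin D0 → (W ^ q : Submodule ℂ B)) →ₗ[ℂ] B :=
    ∑ i : Fin D0, (LinearMap.mulRight ℂ (ω (em i))) ∘ₗ (W ^ q : Submodule ℂ B).subtype ∘ₗ
      (LinearMap.proj i)
  have hΦ : ∀ g, Φ g = ∑ i : Fin D0, (g i : B) * ω (em i) := by
    intro g
    simp [Φ]
  have hinj : Function.Injective Φ := by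
    rw [← LinearMap.ker_eq_bot, LinearMap.ker_eq_bot']
    intro g hg
    rw [hΦ] at hg
    have hK : ∀ i, resPhi (s0 ^ q) (g i : B) ∈ resK W := by
      intro i
      rw [res_phi_apply, mul_comm, ← div_eq_mul_inv]
      exact res_mem_K W (g i).2 (H.s0_pow_mem q) (pow_ne_zero _ H.hs0')
    have h1 : ∑ i : Fin D0, (⟨_, hK i⟩ : resK W) • resPhi (s0 ^ j) (ω (em i)) = 0 := by
      have h2 : ∀ i : Fin D0, (⟨_, hK i⟩ : resK W) • resPhi (s0 ^ j) (ω (em i)) =
          resPhi (s0 ^ q * s0 ^ j) ((g i : B) * ω (em i)) := by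
        intro i
        rw [← res_phi_mul]
        rfl
      rw [Finset.sum_congr rfl (fun i _ => h2 i), ← map_sum, hg, map_zero]
    have h3 := (Fintype.linearIndependent_iff.1 hli') _ h1
    funext i
    apply Subtype.ext
    have h4 : resPhi (s0 ^ q) (g i : B) = 0 := congrArg Subtype.val (h3 i)
    show (g i : B) = 0
    exact res_phi_inj (pow_ne_zero _ H.hs0') (by rw [h4, map_zero])
  have hrange : LinearMap.range Φ ≤ S ((j + q) * κ) := by
    rintro _ ⟨g, rfl⟩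
    rw [hΦ]
    refine Submodule.sum_mem _ fun i _ => ?_
    exact H.W_pow_mul_le q j (Submodule.mul_mem_mul (g i).2 (hω (em i)))
  calc D0 * finrank ℂ (W ^ q : Submodule ℂ B)
      = finrank ℂ (Fin D0 → (W ^ q : Submodule ℂ B)) := by
        rw [Module.finrank_pi_fintype]; simp
    _ = finrank ℂ (LinearMap.range Φ) := (LinearMap.finrank_range_of_inj hinj).symm
    _ ≤ finrank ℂ (S ((j + q) * κ)) := Submodule.finrank_mono hrange

theorem res_finrank_mul_le (M N : Submodule ℂ B) [FiniteDimensional ℂ M] [FiniteDimensional ℂ N] :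
    finrank ℂ (M * N : Submodule ℂ B) ≤ finrank ℂ M * finrank ℂ N := by
  rw [← Submodule.mulMap_range, ← Module.finrank_tensorProduct (R := ℂ) (S := ℂ)]
  exact LinearMap.finrank_range_le _

/-- the elements of `F` which have a denominator in some `W^e` with respect to `Ω` -/
def resDen (W Ω : Submodule ℂ B) (t : B) : Submodule (resK W) (FractionRing B) where
  carrier := {z | ∃ (e : ℕ) (g y : B), g ∈ W ^ e ∧ g ≠ 0 ∧ y ∈ W ^ e * Ω ∧ z = resPhi (t * g) y}
  zero_mem' := ⟨0, 1, 0, by rw [pow_zero]; exact Submodule.one_le.1 le_rfl, one_ne_zero,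
    Submodule.zero_mem _, by rw [map_zero]⟩
  add_mem' := by
    rintro _ _ ⟨e, g, y, hg, hg0, hy, rfl⟩ ⟨e', g', y', hg', hg0', hy', rfl⟩
    refine ⟨e + e', g * g', y * g' + y' * g, ?_, mul_ne_zero hg0 hg0', ?_, ?_⟩
    · rw [pow_add]; exact Submodule.mul_mem_mul hg hg'
    · refine Submodule.add_mem _ ?_ ?_
      · have h := Submodule.mul_mem_mul hy hg'
        rwa [mul_right_comm, ← pow_add] at h
      · have h := Submodule.mul_mem_mul hy' hg
        rwa [mul_right_comm, ← pow_add, add_comm] at h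
    · rw [map_add, ← mul_assoc, res_phi_cancel hg0', mul_assoc, mul_comm g g', ← mul_assoc,
        res_phi_cancel hg0]
  smul_mem' := by
    rintro ⟨_, a, p, h, hp, hh, hh0, rfl⟩ _ ⟨e, g, y, hg, hg0, hy, rfl⟩
    refine ⟨a + e, h * g, p * y, ?_, mul_ne_zero hh0 hg0, ?_, ?_⟩
    · rw [pow_add]; exact Submodule.mul_mem_mul hh hg
    · rw [pow_add, mul_assoc]; exact Submodule.mul_mem_mul hp hy
    · show algebraMap B (FractionRing B) p / algebraMap B (FractionRing B) h * resPhi (t * g) y = _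
      simp only [res_phi_apply, map_mul, mul_inv]
      ring

theorem res_den_eqns_cite : True := by
  have := @resDen.eq_1
  trivial

/-- a `K0`-basis of `M_j` coming from `S (j κ)` -/
theorem res_M_basis (H : ResSet S κ e₀ c W s0) (j : ℕ) :
    ∃ (D : ℕ) (ω : Fin D → B), D = finrank (resK W) (resM S κ W s0 j) ∧ (∀ i, ω i ∈ S (j * κ)) ∧
      Submodule.span (resK W) (Set.range fun i => resPhi (s0 ^ j) (ω i)) = resM S κ W s0 j := by
  have hfinM : Module.Finite (resK W) (Submodule.span (resK W)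
      (Submodule.map (resPhi (s0 ^ j)) (S (j * κ)) : Set (FractionRing B))) := res_M_fin H j
  obtain ⟨f, hf, hspan, -⟩ := Submodule.exists_fun_fin_finrank_span_eq (resK W)
    (Submodule.map (resPhi (s0 ^ j)) (S (j * κ)) : Set (FractionRing B))
  choose ω hω hωf using hf
  refine ⟨_, ω, rfl, hω, ?_⟩
  have e : (fun i => resPhi (s0 ^ j) (ω i)) = f := funext hωf
  rw [e, hspan]
  rfl

/-- THE UPPER BOUND -/
theorem res_up (H : ResSet S κ e₀ c W s0) :
    ∃ e : ℕ, ∀ q, finrank ℂ (S ((e₀ + c + q) * κ)) ≤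
      finrank (resK W) (resM S κ W s0 (e₀ + c)) * finrank ℂ (W ^ (q + e) : Submodule ℂ B) := by
  obtain ⟨D, ω, hD, hω, hspan⟩ := res_M_basis H (e₀ + c)
  rw [← hD]
  set Ω : Submodule ℂ B := Submodule.span ℂ (Set.range ω) with hΩ
  have hΩfin : FiniteDimensional ℂ Ω := FiniteDimensional.span_of_finite ℂ (Set.finite_range ω)
  have hΩD : finrank ℂ Ω ≤ D := by
    have := finrank_range_le_card (R := ℂ) ω
    rwa [Fintype.card_fin] at this
  have ht0 : s0 ^ (e₀ + c) ≠ 0 := pow_ne_zero _ H.hs0'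
  -- every element of `M_(j1)` has a denominator
  have hle : resM S κ W s0 (e₀ + c) ≤ resDen W Ω (s0 ^ (e₀ + c)) := by
    rw [← hspan, Submodule.span_le]
    rintro _ ⟨i, rfl⟩
    refine ⟨0, 1, ω i, by rw [pow_zero]; exact Submodule.one_le.1 le_rfl, one_ne_zero, ?_, ?_⟩
    · rw [pow_zero, one_mul]; exact Submodule.subset_span ⟨i, rfl⟩
    · rw [mul_one]
  have hone : ∀ u ∈ S ((e₀ + c) * κ), ∃ (e : ℕ) (g : B), g ∈ W ^ e ∧ g ≠ 0 ∧ u * g ∈ W ^ e * Ω := by
    intro u hu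
    obtain ⟨e, g, y, hg, hg0, hy, hz⟩ := hle (res_M_mem (e₀ + c) hu)
    refine ⟨e, g, hg, hg0, ?_⟩
    rw [← res_phi_cancel hg0] at hz
    rw [res_phi_inj (mul_ne_zero ht0 hg0) hz]
    exact hy
  -- a common denominator
  have hall : ∀ (N : Submodule ℂ B) (_ : N.FG), N ≤ S ((e₀ + c) * κ) →
      ∃ (e : ℕ) (g : B), g ∈ W ^ e ∧ g ≠ 0 ∧ ∀ u ∈ N, u * g ∈ W ^ e * Ω := by
    intro N hN
    refine Submodule.fg_induction (motive := fun N _ => N ≤ S ((e₀ + c) * κ) →
      ∃ (e : ℕ) (g : B), g ∈ W ^ e ∧ g ≠ 0 ∧ ∀ u ∈ N, u * g ∈ W ^ e * Ω) ?_ ?_ N hN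
    · intro x hx
      obtain ⟨e, g, hg, hg0, hxg⟩ := hone x (hx (Submodule.mem_span_singleton_self x))
      refine ⟨e, g, hg, hg0, fun u hu => ?_⟩
      obtain ⟨a, rfl⟩ := Submodule.mem_span_singleton.1 hu
      rw [smul_mul_assoc]
      exact Submodule.smul_mem _ _ hxg
    · intro N₁ N₂ _ _ h₁ h₂ hle'
      obtain ⟨e₁, g₁, hg₁, hg₁0, hu₁⟩ := h₁ (le_sup_left.trans hle')
      obtain ⟨e₂, g₂, hg₂, hg₂0, hu₂⟩ := h₂ (le_sup_right.trans hle')
      refine ⟨e₁ + e₂, g₁ * g₂, ?_, mul_ne_zero hg₁0 hg₂0, fun u hu => ?_⟩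
      · rw [pow_add]; exact Submodule.mul_mem_mul hg₁ hg₂
      · obtain ⟨u₁, h1, u₂, h2, rfl⟩ := Submodule.mem_sup.1 hu
        rw [add_mul]
        refine Submodule.add_mem _ ?_ ?_
        · have h := Submodule.mul_mem_mul (hu₁ u₁ h1) hg₂
          rwa [mul_right_comm (W ^ e₁), ← pow_add, mul_assoc] at h
        · have h := Submodule.mul_mem_mul (hu₂ u₂ h2) hg₁
          rwa [mul_right_comm (W ^ e₂), ← pow_add, add_comm, mul_assoc, mul_comm g₂] at h
  obtain ⟨e, g, hg, hg0, hgu⟩ := hall _ ((Submodule.fg_iff_finiteDimensional _).2 (H.fin _)) le_rfl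
  refine ⟨e, fun q => ?_⟩
  have hfinW := res_W_fin H (q + e)
  have hfinWΩ : FiniteDimensional ℂ (W ^ (q + e) * Ω : Submodule ℂ B) :=
    (Submodule.fg_iff_finiteDimensional _).1 (((Submodule.fg_iff_finiteDimensional _).2 hfinW).mul
      ((Submodule.fg_iff_finiteDimensional _).2 hΩfin))
  have hinj : Function.Injective (LinearMap.mulRight ℂ g) := fun a b hab =>
    mul_right_cancel₀ hg0 hab
  have hmap : Submodule.map (LinearMap.mulRight ℂ g) (S ((e₀ + c + q) * κ)) ≤ W ^ (q + e) * Ω := by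
    refine (Submodule.map_mono (H.fg q)).trans ?_
    rw [Submodule.map_le_iff_le_comap, Submodule.mul_le]
    intro a ha u hu
    rw [Submodule.mem_comap, LinearMap.mulRight_apply, mul_assoc, pow_add, mul_assoc]
    exact Submodule.mul_mem_mul ha (hgu u hu)
  calc finrank ℂ (S ((e₀ + c + q) * κ))
      = finrank ℂ (Submodule.map (LinearMap.mulRight ℂ g) (S ((e₀ + c + q) * κ))) :=
        (Submodule.equivMapOfInjective _ hinj _).finrank_eq
    _ ≤ finrank ℂ (W ^ (q + e) * Ω : Submodule ℂ B) := Submodule.finrank_mono hmap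
    _ ≤ finrank ℂ (W ^ (q + e) : Submodule ℂ B) * finrank ℂ Ω := res_finrank_mul_le _ _
    _ ≤ finrank ℂ (W ^ (q + e) : Submodule ℂ B) * D := Nat.mul_le_mul_left _ hΩD
    _ = D * finrank ℂ (W ^ (q + e) : Submodule ℂ B) := mul_comm _ _

end Setting

theorem res_homIndep_ne_zero {r : ℕ} {σ : Fin r → B} (hσ : HomIndep σ) (i : Fin r) : σ i ≠ 0 := by
  intro h0
  have h := hσ 1 (MvPolynomial.X i) (MvPolynomial.isHomogeneous_X ℂ i) (by rw [MvPolynomial.aeval_X, h0])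
  exact MvPolynomial.X_ne_zero i h

/-- **THE SANDWICH** -/
theorem res_sandwich (S : ℕ → Submodule ℂ B) (κ e₀ d1 : ℕ)
    (hfin : ∀ j, FiniteDimensional ℂ (S j)) (hmul : ∀ i j, S i * S j ≤ S (i + j))
    (h1 : ∀ q, e₀ ≤ q → S ((q + 1) * κ) ≤ S κ * S (q * κ))
    (σ : Fin (d1 + 1) → B) (hσ : HomIndep σ)
    (hred : ResRed (Submodule.span ℂ (Set.range σ)) (S κ)) :
    ∃ D : ℕ, 1 ≤ D ∧ (∃ c' : ℕ, ∀ q, finrank ℂ (S (q * κ)) ≤ D * (q + c' + d1).choose d1) ∧
      ∀ D0, 1 ≤ D0 → D0 ≤ D → ∀ q,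
        D0 * (q + d1).choose d1 ≤ finrank ℂ (S ((e₀ + D0 - 1 + q) * κ)) := by
  obtain ⟨hW, c, hc⟩ := hred
  have H : ResSet S κ e₀ c (Submodule.span ℂ (Set.range σ)) (σ 0) :=
    ⟨hfin, hmul, h1, hW, hc, Submodule.subset_span ⟨0, rfl⟩, res_homIndep_ne_zero hσ 0⟩
  refine ⟨finrank (resK (Submodule.span ℂ (Set.range σ)))
    (resM S κ (Submodule.span ℂ (Set.range σ)) (σ 0) (e₀ + c)),
    res_M_rank_pos H (Nat.le_add_right _ _), ?_, ?_⟩
  · obtain ⟨e, he⟩ := res_up H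
    refine ⟨e, fun q => ?_⟩
    have h2 := he q
    rw [res_finrank_pow σ hσ] at h2
    refine le_trans ?_ h2
    have hg0 : σ 0 ^ (e₀ + c) ≠ 0 := pow_ne_zero _ H.hs0'
    have hinj : Function.Injective (LinearMap.mulRight ℂ (σ 0 ^ (e₀ + c))) := fun a b hab =>
      mul_right_cancel₀ hg0 hab
    have hmap : Submodule.map (LinearMap.mulRight ℂ (σ 0 ^ (e₀ + c))) (S (q * κ)) ≤
        S ((e₀ + c + q) * κ) := by
      rintro _ ⟨a, ha, rfl⟩
      have h3 := H.mul_pow_mem ha (e₀ + c)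
      have e' : q * κ + (e₀ + c) * κ = (e₀ + c + q) * κ := by ring
      rw [e'] at h3
      exact h3
    have := hfin ((e₀ + c + q) * κ)
    calc finrank ℂ (S (q * κ))
        = finrank ℂ (Submodule.map (LinearMap.mulRight ℂ (σ 0 ^ (e₀ + c))) (S (q * κ))) :=
          (Submodule.equivMapOfInjective _ hinj _).finrank_eq
      _ ≤ finrank ℂ (S ((e₀ + c + q) * κ)) := Submodule.finrank_mono hmap
  · intro D0 hD0 hD q
    have h2 := res_low H (e₀ + D0 - 1) D0 (res_M_rank H D0 hD0 hD) q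
    rwa [res_finrank_pow σ hσ] at h2

end Claimed.Agent.R242
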