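/-
R242 / Res / SandFin : `ResSandStmt` (see `Res/Glue.lean`) from `res_nn` (`Res/Red.lean`) and `res_sandwich` (`Res/Sand.lean`);
`res_main`, `res_upper` in final form.   helper147.
-/
import Claimed.Agent.R242.Res.Sand
import Claimed.Agent.R242.Res.Glue

set_option autoImplicit false
set_option linter.unusedSectionVars false

namespace Claimed.Agent.R242

open Module

/-- a subfamily of a homogeneously independent family -/
theorem res_homIndep_comp {B : Type*} [CommRing B] [Algebra ℂ B] {r r' : ℕ} (σ : Fin r → B)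
    (h : HomIndep σ) (ι : Fin r' → Fin r) (hι : Function.Injective ι) : HomIndep (σ ∘ ι) := by
  intro e P hP h0
  have h1 : MvPolynomial.aeval σ (MvPolynomial.rename ι P) = 0 := by
    rw [MvPolynomial.aeval_rename]; exact h0
  have h2 := h e _ hP.rename_isHomogeneous h1
  exact MvPolynomial.rename_injective ι hι (by rw [h2, map_zero])

theorem res_sand : ResSandStmt := by
  intro B _ _ _ S κ e₀ n fin mul h1 hne h3b
  have := fin κ
  obtain ⟨r, σ, hI, hred0⟩ := res_nn (S κ)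
  obtain ⟨hW, c, hred⟩ := id hred0
  -- `r ≥ 1`
  have hr : r ≠ 0 := by
    rintro rfl
    have hWb : Submodule.span ℂ (Set.range σ) = ⊥ := by
      rw [Set.range_eq_empty, Submodule.span_empty]
    rw [hWb, Submodule.bot_mul, le_bot_iff] at hred
    have hU : S κ = ⊥ := by
      by_contra hU
      obtain ⟨u, hu, hu0⟩ := (Submodule.ne_bot_iff _).1 hU
      have : u ^ (c + 1) ∈ (S κ) ^ (c + 1) := Submodule.pow_mem_pow _ hu _
      rw [hred, Submodule.mem_bot] at this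
      exact pow_ne_zero _ hu0 this
    obtain ⟨q', hq', hq'0⟩ := hne (e₀ + 1)
    obtain ⟨q, rfl⟩ : ∃ q, q' = q + 1 := ⟨q' - 1, by omega⟩
    have := h1 q (by omega)
    rw [hU, Submodule.bot_mul, le_bot_iff] at this
    exact hq'0 this
  obtain ⟨d1, rfl⟩ : ∃ d1, r = d1 + 1 := ⟨r - 1, by omega⟩
  have hd1 : d1 ≤ n := by
    by_contra hcon
    have hle : n + 2 ≤ d1 + 1 := by omega
    refine h3b κ (σ ∘ Fin.castLE hle) (fun i => hW (Submodule.subset_span ⟨_, rfl⟩)) ?_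
    exact res_homIndep_comp σ hI _ (Fin.castLE_injective hle)
  obtain ⟨D, hD, ⟨c', hup⟩, hlow⟩ := res_sandwich S κ e₀ d1 fin mul h1 σ hI hred0
  exact ⟨d1, D, c', hd1, hD, hup, hlow⟩

/-- **Lemma 5.2, abstract form** (statement of `res_main` in `Res/Main.lean`). -/
theorem res_main_pf (k e₀ b₀ n : ℕ) (hk : 1 ≤ k) :
    ∃ (C : ℝ) (H : ℕ), ∀ (B : Type) [CommRing B] [IsDomain B] [Algebra ℂ B] (S : ℕ → Submodule ℂ B),
      ResHyp B S k e₀ b₀ n → ∀ (d : ℕ), 1 ≤ d → ∀ (k' : ℕ) (σ : Fin (d + 1) → B), (∀ i, σ i ∈ S k') → HomIndep σ →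
      ∀ h : ℕ, H ≤ h → (h : ℝ) - C ≤ ((d.factorial : ℝ) * finrank ℂ (S h)) ^ (1 / (d : ℝ)) :=
  res_main_of_sand res_sand k e₀ b₀ n hk

/-- polynomial growth (statement of `res_upper` in `Res/Main.lean`). -/
theorem res_upper_pf (k e₀ b₀ n : ℕ) (hk : 1 ≤ k) (B : Type) [CommRing B] [IsDomain B] [Algebra ℂ B]
    (S : ℕ → Submodule ℂ B) (hS : ResHyp B S k e₀ b₀ n) :
    ∃ CN : ℝ, ∀ j : ℕ, 1 ≤ j → (finrank ℂ (S j) : ℝ) ≤ CN * (j : ℝ) ^ n :=
  res_upper_of_sand res_sand k e₀ b₀ n hk B S hS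

end Claimed.Agent.R242
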