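/-
R242 / Res / XGr : package ALG-X (architect helper120).  Mathlib only, no paper.

ABSTRACT SETTING.  `K` a field over `ℂ`, `W q ⊆ K` subspaces with `W i * W j ⊆ W (i+j)`, `1 ∈ W 0`, `τ_1..τ_N ∈ W 1`.
 Think of `W q = H^0(X, q κ L)`, `τ` = a base point free family of sections of `κ L`.
 `ResxHyp W τ` = the hypotheses (see the structure).
 GOAL (`resx_abs`, file XAbs): `∃ e₀, (∀ q ≥ e₀, W (q+1) ≤ W 1 * W q) ∧ ∀ q, FiniteDimensional ℂ (W q)`.

 In `K[X]`:  `resxGr U` = `{g | ∀ d, g.coeff d ∈ U d}` (a subalgebra if `U` is multiplicative),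
             `resxT τ`  = `ℂ[τ_i X]`,     `resxR W τ` = `resxGr W` as a module over `resxT τ`.
 Files:  XGr  (this file)  definitions, `resxT τ ≤ resxGr (V^d)`, and the EXTRACTION: `(resxR ..).FG → goal`.
         XInt : `C f * X^q` (`f ∈ W q`) is integral over `resxT τ`        (valuation subrings of `Frac K[X]`)
         XAlg : `Frac K[X]` is generated over `resxT τ` by finitely many algebraic elements
         XFin : finiteness of integral closure (Noether normalisation + trace form), abstract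
         XAbs : glue.      XModel : the hypotheses hold on a `Model`; `Model.resHyp`.

LEAF ALG-X-GR = all sorries of this file.
 Plan.  `resxGr`: `coeff_mul` + `Finset.sum_mem` + `Submodule.mul_mem_mul` (antidiagonal).
 `resx_T_le`: `Algebra.adjoin_le`; `coeff (C a * X) d = if d = 1 then a else 0`; `V^1 = V`.
 `resx_extract`: let `s` be a finite generating set of `resxR` over `T = resxT τ`, `e₀ = sup natDegree`.  For `f ∈ W q'`:
   `C f * X^q' = ∑_{r ∈ s} a_r • r` (`Submodule.mem_span_finset`/`Submodule.mem_span_iff_exists_finset_subset` ...), `a_r ∈ T`, so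
   `f = ∑_r ∑_{(d,e) ∈ antidiagonal q'} coeff a_r d * coeff r e`, terms with `e > e₀` vanish, `coeff a_r d ∈ V^d`, `coeff r e ∈ W e`.
   (i) `q' = q+1`, `q ≥ e₀`: `d ≥ 1`, `V^d = V * V^(d-1) ≤ W 1 * W (d-1)`, so the term is in `W 1 * (W (d-1) * W e) ≤ W 1 * W q`.
   (ii) `W q' ≤ ∑_{r ∈ s} ∑_{(d,e)} V^d * span {coeff r e}`, which is FG (`Submodule.FG.pow`, `.mul`, `Submodule.fg_finset_sup`/`fg_biSup`),
        hence finite dimensional (`Module.Finite.iff_fg`, `Submodule.finiteDimensional_of_le`).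
-/
import Mathlib

set_option autoImplicit false

noncomputable section

namespace Claimed.Agent.R242

open Polynomial

variable {K : Type} [Field K] [Algebra ℂ K]

/-- the hypotheses of the abstract finiteness theorem `resx_abs` -/
structure ResxHyp (W : ℕ → Submodule ℂ K) {N : ℕ} (τ : Fin N → K) : Prop where
  one : (1 : K) ∈ W 0
  mul : ∀ i j, W i * W j ≤ W (i + j)
  tau : ∀ i, τ i ∈ W 1
  /-- valuative form of "`τ` is base point free and `X` is complete" -/
  val : ∀ V : ValuationSubring K, (∀ c : ℂ, algebraMap ℂ K c ∈ V) →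
    ∃ i, τ i ≠ 0 ∧ ∀ q, ∀ f ∈ W q, f / τ i ^ q ∈ V
  /-- `K` is a finitely generated field -/
  fg : ∃ G : Finset K, IntermediateField.adjoin ℂ (G : Set K) = ⊤
  /-- `K` is algebraic over a subring generated by roots of quotients of sections -/
  alg : ∃ Y : Set K, (∀ y ∈ Y, ∃ m q : ℕ, 1 ≤ m ∧ ∃ f ∈ W q, ∃ g ∈ W q, g ≠ 0 ∧ y ^ m * g = f) ∧
    ∀ a : K, IsAlgebraic (Algebra.adjoin ℂ Y) a

/-- the graded subalgebra `⊕ U_d X^d` of `K[X]` -/
def resxGr (U : ℕ → Submodule ℂ K) (h1 : (1 : K) ∈ U 0) (hmul : ∀ i j, U i * U j ≤ U (i + j)) :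
    Subalgebra ℂ K[X] where
  carrier := {g | ∀ d, g.coeff d ∈ U d}
  mul_mem' := by
    intro a b ha hb d
    rw [coeff_mul]
    refine Submodule.sum_mem _ fun p hp => ?_
    rw [← Finset.HasAntidiagonal.mem_antidiagonal.mp hp]
    exact hmul _ _ (Submodule.mul_mem_mul (ha _) (hb _))
  add_mem' := by
    intro a b ha hb d
    rw [coeff_add]
    exact (U d).add_mem (ha d) (hb d)
  algebraMap_mem' := by
    intro c d
    rw [Polynomial.algebraMap_apply, coeff_C]
    split_ifs with hd
    · subst hd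
      rw [Algebra.algebraMap_eq_smul_one]
      exact (U 0).smul_mem c h1
    · exact (U d).zero_mem

theorem mem_resxGr {U : ℕ → Submodule ℂ K} {h1 : (1 : K) ∈ U 0} {hmul : ∀ i j, U i * U j ≤ U (i + j)}
    {g : K[X]} : g ∈ resxGr U h1 hmul ↔ ∀ d, g.coeff d ∈ U d := Iff.rfl

/-- `ℂ[τ_i X] ⊆ K[X]` -/
def resxT {N : ℕ} (τ : Fin N → K) : Subalgebra ℂ K[X] :=
  Algebra.adjoin ℂ (Set.range fun i => C (τ i) * X)

/-- the span of the `τ_i` -/
def resxV {N : ℕ} (τ : Fin N → K) : Submodule ℂ K := Submodule.span ℂ (Set.range τ)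

theorem resxT_fg {N : ℕ} (τ : Fin N → K) : (resxT τ).FG :=
  ⟨(Set.finite_range _).toFinset, by rw [Set.Finite.coe_toFinset]; rfl⟩

theorem resxV_fg {N : ℕ} (τ : Fin N → K) : (resxV τ).FG :=
  Submodule.fg_span (Set.finite_range _)

/-- the coefficients of the elements of `ℂ[τ_i X]` -/
theorem resx_T_coeff {N : ℕ} (τ : Fin N → K) {a : K[X]} (ha : a ∈ resxT τ) (d : ℕ) :
    a.coeff d ∈ resxV τ ^ d := by
  have h1 : (1 : K) ∈ resxV τ ^ 0 := by
    rw [pow_zero]
    exact Submodule.one_le.mp le_rfl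
  have hmul : ∀ i j, resxV τ ^ i * resxV τ ^ j ≤ resxV τ ^ (i + j) := fun i j => (pow_add _ i j).ge
  have hle : resxT τ ≤ resxGr (fun d => resxV τ ^ d) h1 hmul := by
    refine Algebra.adjoin_le ?_
    rintro _ ⟨i, rfl⟩ e
    show (C (τ i) * X : K[X]).coeff e ∈ resxV τ ^ e
    rw [coeff_C_mul_X]
    split_ifs with he
    · subst he
      rw [pow_one]
      exact Submodule.subset_span ⟨i, rfl⟩
    · exact Submodule.zero_mem _
  exact hle ha d

variable {W : ℕ → Submodule ℂ K} {N : ℕ} {τ : Fin N → K}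

theorem ResxHyp.V_le (h : ResxHyp W τ) : resxV τ ≤ W 1 := by
  refine Submodule.span_le.mpr ?_
  rintro _ ⟨i, rfl⟩
  exact h.tau i

theorem ResxHyp.V_pow_le (h : ResxHyp W τ) (d : ℕ) : resxV τ ^ d ≤ W d := by
  induction d with
  | zero =>
    rw [pow_zero]
    exact Submodule.one_le.mpr h.one
  | succ d ih =>
    rw [pow_succ]
    exact (mul_le_mul' ih h.V_le).trans (h.mul d 1)

theorem ResxHyp.T_le (h : ResxHyp W τ) : resxT τ ≤ resxGr W h.one h.mul :=
  fun _ ha d => h.V_pow_le d (resx_T_coeff τ ha d)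

/-- `⊕ W_d X^d` as a module over `ℂ[τ_i X]` -/
def resxR (h : ResxHyp W τ) : Submodule (resxT τ) K[X] where
  carrier := {g | ∀ d, g.coeff d ∈ W d}
  add_mem' := by
    intro a b ha hb
    exact (resxGr W h.one h.mul).add_mem ha hb
  zero_mem' := by
    exact (resxGr W h.one h.mul).zero_mem
  smul_mem' := by
    intro c g hg
    exact (resxGr W h.one h.mul).mul_mem (h.T_le c.2) hg

theorem mem_resxR (h : ResxHyp W τ) {g : K[X]} : g ∈ resxR h ↔ ∀ d, g.coeff d ∈ W d := Iff.rfl

theorem resx_monomial_mem (h : ResxHyp W τ) {q : ℕ} {f : K} (hf : f ∈ W q) : C f * X ^ q ∈ resxR h := by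
  intro d
  rw [coeff_C_mul_X_pow]
  split_ifs with hd
  · subst hd
    exact hf
  · exact Submodule.zero_mem _

/-- expansion of `f ∈ W q` along a finite generating set of `⊕ W_d X^d`. -/
theorem resx_expand (h : ResxHyp W τ) {s : Finset K[X]}
    (hs : Submodule.span (resxT τ) (s : Set K[X]) = resxR h) {q : ℕ} {f : K} (hf : f ∈ W q) :
    ∃ a : K[X] → K[X], (∀ r, a r ∈ resxT τ) ∧
      f = ∑ r ∈ s, ∑ p ∈ Finset.HasAntidiagonal.antidiagonal q, (a r).coeff p.1 * r.coeff p.2 := by
  have hm : C f * X ^ q ∈ Submodule.span (resxT τ) (s : Set K[X]) := by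
    rw [hs]
    exact resx_monomial_mem h hf
  obtain ⟨a, -, ha⟩ := Submodule.mem_span_finset.mp hm
  refine ⟨fun r => (a r : K[X]), fun r => (a r).2, ?_⟩
  have h1 : (C f * X ^ q : K[X]).coeff q = f := by
    rw [coeff_C_mul_X_pow, if_pos rfl]
  rw [← h1, ← ha, finsetSum_coeff]
  refine Finset.sum_congr rfl fun r _ => ?_
  rw [← coeff_mul]
  rfl

/-- **extraction**: if `⊕ W_d X^d` is a finite module over `ℂ[τ_i X]`, then it is generated in bounded degrees and its
graded pieces are finite dimensional. -/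
theorem resx_extract (h : ResxHyp W τ) (hfg : (resxR h).FG) :
    ∃ e₀ : ℕ, (∀ q, e₀ ≤ q → W (q + 1) ≤ W 1 * W q) ∧ ∀ q, FiniteDimensional ℂ (W q) := by
  obtain ⟨s, hs⟩ := hfg
  have hsW : ∀ r ∈ s, ∀ e, r.coeff e ∈ W e := by
    intro r hr
    have : r ∈ resxR h := by
      rw [← hs]
      exact Submodule.subset_span hr
    exact this
  refine ⟨s.sup natDegree, fun q hq f hf => ?_, fun q => ?_⟩
  · obtain ⟨a, haT, rfl⟩ := resx_expand h hs hf
    refine Submodule.sum_mem _ fun r hr => Submodule.sum_mem _ fun p hp => ?_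
    have hp' : p.1 + p.2 = q + 1 := Finset.HasAntidiagonal.mem_antidiagonal.mp hp
    by_cases he : r.natDegree < p.2
    · rw [coeff_eq_zero_of_natDegree_lt he, mul_zero]
      exact Submodule.zero_mem _
    · have h1 : r.natDegree ≤ s.sup natDegree := Finset.le_sup (f := natDegree) hr
      obtain ⟨d, hd⟩ : ∃ d, p.1 = d + 1 := ⟨p.1 - 1, by omega⟩
      have h2 : (a r).coeff p.1 ∈ W 1 * W d := by
        have := resx_T_coeff τ (haT r) p.1
        rw [hd, pow_succ'] at this
        rw [hd]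
        exact mul_le_mul' h.V_le (h.V_pow_le d) this
      have h3 : (a r).coeff p.1 * r.coeff p.2 ∈ W 1 * W d * W p.2 :=
        Submodule.mul_mem_mul h2 (hsW r hr _)
      rw [mul_assoc] at h3
      have h4 : d + p.2 = q := by omega
      have h5 : W d * W p.2 ≤ W q := h4 ▸ h.mul d p.2
      exact mul_le_mul' le_rfl h5 h3
  · set P : Submodule ℂ K := s.sup fun r => (Finset.HasAntidiagonal.antidiagonal q).sup fun p =>
      resxV τ ^ p.1 * Submodule.span ℂ {r.coeff p.2} with hP
    have hPfg : P.FG := by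
      refine Submodule.fg_finset_sup _ _ fun r _ => Submodule.fg_finset_sup _ _ fun p _ => ?_
      exact ((resxV_fg τ).pow _).mul (Submodule.fg_span (Set.finite_singleton _))
    have hle : W q ≤ P := by
      intro f hf
      obtain ⟨a, haT, rfl⟩ := resx_expand h hs hf
      refine Submodule.sum_mem _ fun r hr => Submodule.sum_mem _ fun p hp => ?_
      have h1 : (a r).coeff p.1 * r.coeff p.2 ∈
          resxV τ ^ p.1 * Submodule.span ℂ {r.coeff p.2} :=
        Submodule.mul_mem_mul (resx_T_coeff τ (haT r) p.1) (Submodule.mem_span_singleton_self _)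
      have h2 : resxV τ ^ p.1 * Submodule.span ℂ {r.coeff p.2} ≤
          (Finset.HasAntidiagonal.antidiagonal q).sup fun p => resxV τ ^ p.1 * Submodule.span ℂ {r.coeff p.2} :=
        Finset.le_sup (f := fun p : ℕ × ℕ => resxV τ ^ p.1 * Submodule.span ℂ {r.coeff p.2}) hp
      have h3 : ((Finset.HasAntidiagonal.antidiagonal q).sup fun p =>
          resxV τ ^ p.1 * Submodule.span ℂ {r.coeff p.2}) ≤ P :=
        Finset.le_sup (f := fun r : K[X] => (Finset.HasAntidiagonal.antidiagonal q).sup fun p =>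
          resxV τ ^ p.1 * Submodule.span ℂ {r.coeff p.2}) hr
      exact h3 (h2 h1)
    have : FiniteDimensional ℂ P := Module.Finite.iff_fg.mpr hPfg
    exact Submodule.finiteDimensional_of_le hle

theorem resx_gr_eqns_cite : True := by
  have := @resxGr.eq_1
  have := @resxT.eq_1
  have := @resxV.eq_1
  have := @resxR.eq_1
  trivial

end Claimed.Agent.R242

end
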