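/-
R242 / Res / XInt : package ALG-X (architect helper120).  Mathlib only, no paper.

LEAF ALG-X-INT = `resx_int_monomial`, `resx_int`.
 `f ∈ W q  ⟹  C f * X^q` is integral over `T = resxT τ = ℂ[τ_i X] ⊆ K[X]`.

 Plan.  `L := FractionRing K[X]` (or `RatFunc K`), `φ = algebraMap K[X] L` (injective), `ι = φ ∘ C`, `t = φ X`.
  By `isIntegral_algebraMap_iff` (injectivity of `φ`; tower `T → K[X] → L`) it suffices that `x = ι f * t^q` is integral over `T`.
  Mathlib: `iInf_valuationSubring_superset {s : Set L} :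
     (⨅ V : {V : ValuationSubring L // s ⊆ V.toSubring}, V.1.toSubring) = (integralClosure (Subring.closure s) L).toSubring`.
  Take `s = Set.range (algebraMap T L)` (then `Subring.closure s = (algebraMap T L).range`; integral over the range ⟹ integral over `T`:
  lift the monic polynomial (`Polynomial.lifts_and_natDegree_eq_and_monic`), or `isIntegral_trans` through the surjection `T → range`).
  Let `V ⊇ s` be a valuation subring of `L`.  `V' := V.comap ι` (`ValuationSubring.comap`) is a valuation subring of `K` that contains `ℂ`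
  (`ι (algebraMap ℂ K c) = algebraMap T L (algebraMap ℂ T c) ∈ s`).  `h.val V'` gives `i` with `τ i ≠ 0` and `f / τ i ^ q ∈ V'`.  Then
  `x = ι (f / τ i ^ q) * (ι (τ i) * t) ^ q ∈ V`, since `ι (τ i) * t = algebraMap T L ⟨C (τ i) * X, subset_adjoin ..⟩ ∈ s`.
  `resx_int`: `g = ∑ d ∈ g.support, C (g.coeff d) * X^d` (`Polynomial.as_sum_support_C_mul_X_pow`), `IsIntegral.sum`.
-/
import Claimed.Agent.R242.Res.XGr

set_option autoImplicit false

namespace Claimed.Agent.R242

open Polynomial

variable {K : Type} [Field K] [Algebra ℂ K] {W : ℕ → Submodule ℂ K} {N : ℕ} {τ : Fin N → K}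

/-- valuative criterion of integrality over the image of a ring in a field. -/
theorem resx_isIntegral_of_valuationSubring {T L : Type*} [CommRing T] [Field L] [Algebra T L] {x : L}
    (hx : ∀ V : ValuationSubring L, (∀ a : T, algebraMap T L a ∈ V) → x ∈ V) : IsIntegral T x := by
  set s : Set L := Set.range (algebraMap T L) with hs
  have h1 : x ∈ (⨅ V : {V : ValuationSubring L // s ⊆ V.toSubring}, V.1.toSubring) := by
    rw [Subring.mem_iInf]
    rintro ⟨V, hV⟩
    exact hx V fun a => hV ⟨a, rfl⟩
  rw [iInf_valuationSubring_superset] at h1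
  have h2 : IsIntegral (Subring.closure s) x := h1
  obtain ⟨p, hp, hpx⟩ := h2
  let f : T →+* Subring.closure s :=
    (algebraMap T L).codRestrict _ (fun a => Subring.subset_closure ⟨a, rfl⟩)
  have hf : Function.Surjective f := by
    rintro ⟨y, hy⟩
    have hcl : Subring.closure s = (algebraMap T L).range := by
      rw [hs, ← RingHom.coe_range, Subring.closure_eq]
    rw [hcl] at hy
    obtain ⟨a, rfl⟩ := hy
    exact ⟨a, rfl⟩
  obtain ⟨q, hq, -, hqm⟩ := Polynomial.lifts_and_natDegree_eq_and_monic (f := f) (p := p)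
    ((Polynomial.mem_lifts p).mpr (Polynomial.map_surjective f hf p)) hp
  refine ⟨q, hqm, ?_⟩
  rw [← hq, Polynomial.eval₂_map] at hpx
  exact hpx

theorem resx_int_monomial (h : ResxHyp W τ) {q : ℕ} {f : K} (hf : f ∈ W q) :
    IsIntegral (resxT τ) (C f * X ^ q : K[X]) := by
  have hinj : Function.Injective (algebraMap K[X] (FractionRing K[X])) := IsFractionRing.injective _ _
  rw [← isIntegral_algebraMap_iff hinj]
  refine resx_isIntegral_of_valuationSubring fun V hV => ?_
  let ι : K →+* FractionRing K[X] := (algebraMap K[X] (FractionRing K[X])).comp C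
  have hc : ∀ c : ℂ, algebraMap ℂ K c ∈ V.comap ι := by
    intro c
    exact hV (algebraMap ℂ (resxT τ) c)
  obtain ⟨i, hi, hiq⟩ := h.val (V.comap ι) hc
  have h1 : ι (f / τ i ^ q) ∈ V := hiq q f hf
  have h2 : algebraMap K[X] (FractionRing K[X]) (C (τ i) * X) ∈ V :=
    hV ⟨C (τ i) * X, Algebra.subset_adjoin ⟨i, rfl⟩⟩
  have h3 : algebraMap K[X] (FractionRing K[X]) (C f * X ^ q)
      = ι (f / τ i ^ q) * (algebraMap K[X] (FractionRing K[X]) (C (τ i) * X)) ^ q := by
    show _ = algebraMap K[X] (FractionRing K[X]) (C (f / τ i ^ q)) * _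
    rw [← map_pow, ← map_mul]
    congr 1
    rw [mul_pow, ← C_pow, ← mul_assoc, ← C_mul, div_mul_cancel₀ _ (pow_ne_zero q hi)]
  rw [h3]
  exact V.mul_mem _ _ h1 (pow_mem h2 q)

theorem resx_int (h : ResxHyp W τ) {g : K[X]} (hg : g ∈ resxR h) : IsIntegral (resxT τ) g := by
  rw [g.as_sum_support_C_mul_X_pow]
  exact IsIntegral.sum _ fun d _ => resx_int_monomial h (hg d)

end Claimed.Agent.R242
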