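/-
R242 / Res / XAlg : package ALG-X (architect helper120).  Mathlib only, no paper.

LEAF ALG-X-ALG = all sorries of this file.
 `L` = a fraction field of `K[X]`, `ι a = algebraMap K[X] L (C a)`, `t = algebraMap K[X] L X`, `T = resxT τ = ℂ[τ_i X]`.
 (1) `resx_alg_K` : `ι a` is algebraic over `T` for every `a : K`.
     (a) `f ∈ W q ⟹ ι f * t^q` is integral over `T` (`resx_int_monomial` + `IsIntegral.algebraMap`/`.map`), hence algebraic (`IsIntegral.isAlgebraic`).
     (b) `y ∈ Y`, `y^m * g = f`, `g ≠ 0`:  `ι y ^ m = (ι f * t^q) / (ι g * t^q)` algebraic (`IsAlgebraic.mul`, `IsAlgebraic.inv_iff`), so `ι y` is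
         (`IsAlgebraic.of_pow`).
     (c) `Ω := Subalgebra.algebraicClosure T L`.  `ι` maps `Algebra.adjoin ℂ Y` into `Ω` (`Algebra.adjoin_induction`), this gives an injective ring hom
         `Algebra.adjoin ℂ Y →+* Ω`; map the polynomial of `h.alg` along it: `ι a` is algebraic over `Ω`, hence over `T`
         (`IsAlgebraic.restrictScalars T`, instance `Algebra.IsAlgebraic T Ω`).
 (2) `resx_alg_t` : `t = (ι (τ i) * t) * (ι (τ i))⁻¹` for some `i` with `τ i ≠ 0` (`h.val ⊤`).
 (3) `resx_top`   : a subfield of `L` that contains the image of `T`, `ι G` and `t` is `⊤`:  it contains `ι (algebraMap ℂ K c)`;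
     `{a | ι a ∈ F}` is an intermediate field of `K / ℂ` containing `G`, so it is `⊤` (`IntermediateField.adjoin_le_iff`); so `F` contains the image of
     `K[X]` (`Polynomial.induction_on`), so `F = ⊤` (`IsFractionRing.div_surjective`).
-/
import Claimed.Agent.R242.Res.XInt

set_option autoImplicit false

namespace Claimed.Agent.R242

open Polynomial

variable {K : Type} [Field K] [Algebra ℂ K] {W : ℕ → Submodule ℂ K} {N : ℕ} {τ : Fin N → K}
variable (L : Type) [Field L] [Algebra K[X] L] [IsFractionRing K[X] L]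

omit [IsFractionRing K[X] L] in
/-- `ι f * t^q` is algebraic over `T` for `f ∈ W q` -/
theorem resx_alg_mono (h : ResxHyp W τ) {q : ℕ} {f : K} (hf : f ∈ W q) :
    IsAlgebraic (resxT τ) (algebraMap K[X] L (C f * X ^ q)) :=
  ((resx_int_monomial h hf).map (IsScalarTower.toAlgHom (resxT τ) K[X] L)).isAlgebraic

theorem resx_alg_Y (h : ResxHyp W τ) {y : K} {m q : ℕ} (hm : 1 ≤ m) {f g : K} (hf : f ∈ W q)
    (hg : g ∈ W q) (hg0 : g ≠ 0) (hy : y ^ m * g = f) :
    IsAlgebraic (resxT τ) (algebraMap K[X] L (C y)) := by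
  refine IsAlgebraic.of_pow (n := m) hm ?_
  have hinj : Function.Injective (algebraMap K[X] L) := IsFractionRing.injective _ _
  have h0 : algebraMap K[X] L (C g * X ^ q) ≠ 0 := by
    rw [Ne, map_eq_zero_iff _ hinj]
    exact mul_ne_zero (C_ne_zero.2 hg0) (pow_ne_zero _ X_ne_zero)
  have h1 : algebraMap K[X] L (C y) ^ m
      = algebraMap K[X] L (C f * X ^ q) * (algebraMap K[X] L (C g * X ^ q))⁻¹ := by
    rw [eq_mul_inv_iff_mul_eq₀ h0, ← map_pow, ← map_mul, ← hy, C_mul, C_pow]
    ring_nf
  rw [h1]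
  exact (resx_alg_mono L h hf).mul (resx_alg_mono L h hg).inv

theorem resx_alg_K (h : ResxHyp W τ) (a : K) : IsAlgebraic (resxT τ) (algebraMap K[X] L (C a)) := by
  obtain ⟨Y, hY, halg⟩ := h.alg
  have hinj : Function.Injective (algebraMap K[X] L) := IsFractionRing.injective _ _
  let ι : K →+* L := (algebraMap K[X] L).comp C
  have hι : Function.Injective ι := ι.injective
  have hmem : ∀ x ∈ Algebra.adjoin ℂ Y, ι x ∈ Subalgebra.algebraicClosure (resxT τ) L := by
    intro x hx
    induction hx using Algebra.adjoin_induction with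
    | mem y hy =>
      obtain ⟨m, q, hm, f, hf, g, hg, hg0, hyfg⟩ := hY y hy
      exact resx_alg_Y L h hm hf hg hg0 hyfg
    | algebraMap c =>
      exact Subalgebra.algebraMap_mem _ (algebraMap ℂ (resxT τ) c)
    | add x y _ _ hx hy => rw [map_add]; exact add_mem hx hy
    | mul x y _ _ hx hy => rw [map_mul]; exact mul_mem hx hy
  let j : Algebra.adjoin ℂ Y →+* Subalgebra.algebraicClosure (resxT τ) L :=
    (ι.comp (algebraMap (Algebra.adjoin ℂ Y) K)).codRestrict _ fun x => hmem x.1 x.2
  have hj : Function.Injective j := by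
    intro x y hxy
    have : ι x.1 = ι y.1 := congrArg Subtype.val hxy
    exact Subtype.ext (hι this)
  have h1 : IsAlgebraic (Subalgebra.algebraicClosure (resxT τ) L) (ι a) :=
    (halg a).ringHom_of_comp_eq j ι hj rfl
  exact h1.restrictScalars (resxT τ)

theorem resx_alg_t (h : ResxHyp W τ) : IsAlgebraic (resxT τ) (algebraMap K[X] L X) := by
  obtain ⟨i, hi, -⟩ := h.val ⊤ fun c => trivial
  have hinj : Function.Injective (algebraMap K[X] L) := IsFractionRing.injective _ _
  have h0 : algebraMap K[X] L (C (τ i)) ≠ 0 := by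
    rw [Ne, map_eq_zero_iff _ hinj]
    exact C_ne_zero.2 hi
  have h1 : algebraMap K[X] L X
      = algebraMap K[X] L (C (τ i) * X) * (algebraMap K[X] L (C (τ i)))⁻¹ := by
    rw [eq_mul_inv_iff_mul_eq₀ h0, ← map_mul, mul_comm]
  rw [h1]
  have h2 : IsAlgebraic (resxT τ) (algebraMap K[X] L (C (τ i) * X)) :=
    isAlgebraic_algebraMap (⟨C (τ i) * X, Algebra.subset_adjoin ⟨i, rfl⟩⟩ : resxT τ)
  exact h2.mul (resx_alg_K L h (τ i)).inv

theorem resx_top {G : Finset K} (hG : IntermediateField.adjoin ℂ (G : Set K) = ⊤) (F : Subfield L)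
    (hT : ∀ a : resxT τ, algebraMap (resxT τ) L a ∈ F) (hGF : ∀ a ∈ G, algebraMap K[X] L (C a) ∈ F)
    (ht : algebraMap K[X] L X ∈ F) : F = ⊤ := by
  let ι : K →+* L := (algebraMap K[X] L).comp C
  have hc : ∀ c : ℂ, algebraMap ℂ K c ∈ F.comap ι := fun c => hT (algebraMap ℂ (resxT τ) c)
  have hle : IntermediateField.adjoin ℂ (G : Set K) ≤ (F.comap ι).toIntermediateField hc := by
    rw [IntermediateField.adjoin_le_iff]
    intro a ha
    exact hGF a ha
  rw [hG] at hle
  have hK : ∀ a : K, algebraMap K[X] L (C a) ∈ F := fun a => hle (IntermediateField.mem_top (x := a))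
  have hP : ∀ p : K[X], algebraMap K[X] L p ∈ F := by
    intro p
    induction p using Polynomial.induction_on' with
    | add p q hp hq => rw [map_add]; exact add_mem hp hq
    | monomial n a =>
      rw [← C_mul_X_pow_eq_monomial, map_mul, map_pow]
      exact mul_mem (hK a) (pow_mem ht n)
  rw [eq_top_iff]
  intro x _
  obtain ⟨a, b, -, rfl⟩ := IsFractionRing.div_surjective (A := K[X]) x
  exact div_mem (hP a) (hP b)

end Claimed.Agent.R242
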