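/-
R242 / Res / XFin : package ALG-X (architect helper120).  Mathlib only, no paper.

ALG-X-FIN (DONE, helper120) = `resx_fin`: finiteness of integral closure for finitely generated domains over `ℂ`.
 `T` a finitely generated `ℂ`-algebra contained in a field `L`; `L` is generated as a field by `T` and finitely many elements that are
 algebraic over `T`.  Then every `T`-submodule of `L` that consists of elements integral over `T` is finitely generated.

 Plan.  Noether normalisation `exists_finite_inj_algHom_of_fg ℂ T` : `g : A = MvPolynomial (Fin s) ℂ →ₐ[ℂ] T` injective and finite.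
  `Algebra A T := g.toRingHom.toAlgebra`, `Algebra A L := ((algebraMap T L).comp g.toRingHom).toAlgebra`, `IsScalarTower A T L` (`.of_algebraMap_eq'`).
  `A → L` is injective (`FaithfulSMul A L`), `F := FractionRing A`, `FractionRing.liftAlgebra A L`, `FractionRing.isScalarTower_liftAlgebra`.
  `L / F` is finite: `IntermediateField.finiteDimensional_adjoin` for the finite set `S ∪ (images of module generators of T over A)`
  (or: `S ∪` images of the algebra generators of `T`), all integral (= algebraic) over `F`:
  elements of `T` are integral over `A` (`Algebra.IsIntegral.of_finite`), elements of `S` are algebraic over `T`, hence over `A`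
  (`IsAlgebraic.restrictScalars_of_isIntegral`), hence over `F` (`IsFractionRing.isAlgebraic_iff A F L`);  the adjoin is `⊤` by `htop`
  (apply it to `(IntermediateField.adjoin F _).toSubfield`).   `F` has characteristic `0`, so `L / F` is separable.
  `A` is Noetherian and integrally closed (UFD).  `IsIntegralClosure.isNoetherian A F L (integralClosure A L)`.
  `N.restrictScalars A ≤ (integralClosure A L).toSubmodule` (`isIntegral_trans`), so it is FG over `A`
  (`isNoetherian_submodule`/`IsNoetherian.noetherian` after transport along `Subalgebra.toSubmodule`), so `N` is FG over `T`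
  (`Submodule.FG.of_restrictScalars`).
-/
import Mathlib

set_option autoImplicit false

namespace Claimed.Agent.R242

theorem resx_fin_aux {A L : Type} [CommRing A] [IsDomain A] [IsNoetherianRing A] [IsIntegrallyClosed A]
    [CharZero A] [Field L] [Algebra A L] [FaithfulSMul A L]
    (S : Finset L) (hS : ∀ x ∈ S, IsAlgebraic A x)
    (htop : ∀ F : Subfield L, (∀ a : A, algebraMap A L a ∈ F) → (∀ x ∈ S, x ∈ F) → F = ⊤) :
    IsNoetherian A (integralClosure A L) := by
  let _ : Algebra (FractionRing A) L := FractionRing.liftAlgebra A L
  have : IsScalarTower A (FractionRing A) L := FractionRing.isScalarTower_liftAlgebra A L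
  have hfin : FiniteDimensional (FractionRing A) L := by
    have h1 : FiniteDimensional (FractionRing A) (IntermediateField.adjoin (FractionRing A) (S : Set L)) :=
      IntermediateField.finiteDimensional_adjoin (fun x hx =>
        ((IsFractionRing.isAlgebraic_iff A (FractionRing A) L).mp (hS x hx)).isIntegral)
    have h2 : IntermediateField.adjoin (FractionRing A) (S : Set L) = ⊤ := by
      have h3 := htop (IntermediateField.adjoin (FractionRing A) (S : Set L)).toSubfield ?_ ?_
      · apply IntermediateField.toSubfield_injective
        rw [h3]; rfl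
      · intro a
        rw [IsScalarTower.algebraMap_apply A (FractionRing A) L]
        exact (IntermediateField.adjoin (FractionRing A) (S : Set L)).algebraMap_mem _
      · intro x hx
        exact IntermediateField.subset_adjoin _ _ hx
    rw [h2] at h1
    exact (IntermediateField.topEquiv (F := FractionRing A) (E := L)).toLinearEquiv.finiteDimensional
  have : CharZero (FractionRing A) := by
    exact charZero_of_injective_algebraMap (IsFractionRing.injective A (FractionRing A))
  exact IsIntegralClosure.isNoetherian A (FractionRing A) L (integralClosure A L)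

theorem resx_fin {T L : Type} [CommRing T] [Algebra ℂ T] [Algebra.FiniteType ℂ T] [Field L] [Algebra ℂ L]
    [Algebra T L] [IsScalarTower ℂ T L] (hinj : Function.Injective (algebraMap T L))
    (S : Finset L) (hS : ∀ x ∈ S, IsAlgebraic T x)
    (htop : ∀ F : Subfield L, (∀ a : T, algebraMap T L a ∈ F) → (∀ x ∈ S, x ∈ F) → F = ⊤)
    (N : Submodule T L) (hN : ∀ x ∈ N, IsIntegral T x) : N.FG := by
  classical
  have hdom : IsDomain T := hinj.isDomain (algebraMap T L)
  obtain ⟨s, g, hg_inj, hg_fin⟩ := exists_finite_inj_algHom_of_fg ℂ T
  let _ : Algebra (MvPolynomial (Fin s) ℂ) T := g.toRingHom.toAlgebra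
  let _ : Algebra (MvPolynomial (Fin s) ℂ) L := ((algebraMap T L).comp g.toRingHom).toAlgebra
  have : IsScalarTower (MvPolynomial (Fin s) ℂ) T L := IsScalarTower.of_algebraMap_eq' rfl
  have : Module.Finite (MvPolynomial (Fin s) ℂ) T := hg_fin
  have : Algebra.IsIntegral (MvPolynomial (Fin s) ℂ) T := inferInstance
  have : FaithfulSMul (MvPolynomial (Fin s) ℂ) L :=
    (faithfulSMul_iff_algebraMap_injective _ _).mpr (hinj.comp hg_inj)
  obtain ⟨t₀, ht₀⟩ := (Module.Finite.fg_top : (⊤ : Submodule (MvPolynomial (Fin s) ℂ) T).FG)
  have hnoeth : IsNoetherian (MvPolynomial (Fin s) ℂ) (integralClosure (MvPolynomial (Fin s) ℂ) L) := by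
    refine resx_fin_aux (S ∪ t₀.image (algebraMap T L)) ?_ ?_
    · intro x hx
      rcases Finset.mem_union.mp hx with hx | hx
      · exact (hS x hx).restrictScalars_of_isIntegral (MvPolynomial (Fin s) ℂ)
      · obtain ⟨y, -, rfl⟩ := Finset.mem_image.mp hx
        exact ((Algebra.IsIntegral.isIntegral (R := MvPolynomial (Fin s) ℂ) y).algebraMap).isAlgebraic
    · intro F hA hS'
      refine htop F ?_ (fun x hx => hS' x (Finset.mem_union_left _ hx))
      intro a
      have ha : a ∈ Submodule.span (MvPolynomial (Fin s) ℂ) (t₀ : Set T) := ht₀ ▸ Submodule.mem_top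
      induction ha using Submodule.span_induction with
      | mem x hx => exact hS' _ (Finset.mem_union_right _ (Finset.mem_image_of_mem _ hx))
      | zero => simp
      | add x y _ _ hx hy => rw [map_add]; exact F.add_mem hx hy
      | smul c x _ hx =>
        rw [Algebra.smul_def, map_mul, ← IsScalarTower.algebraMap_apply]
        exact F.mul_mem (hA c) hx
  have hle : N.restrictScalars (MvPolynomial (Fin s) ℂ) ≤
      Subalgebra.toSubmodule (integralClosure (MvPolynomial (Fin s) ℂ) L) := by
    intro x hx
    exact isIntegral_trans x (hN x hx)
  have hnoeth' : IsNoetherian (MvPolynomial (Fin s) ℂ)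
      (Subalgebra.toSubmodule (integralClosure (MvPolynomial (Fin s) ℂ) L)) := hnoeth
  exact Submodule.FG.of_restrictScalars (MvPolynomial (Fin s) ℂ) (isNoetherian_submodule.mp hnoeth' _ hle)

end Claimed.Agent.R242
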