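/-
R242 / Res / XAbs : package ALG-X (architect helper120).  Glue of XGr, XInt, XAlg, XFin.
-/
import Claimed.Agent.R242.Res.XAlg
import Claimed.Agent.R242.Res.XFin

set_option autoImplicit false

namespace Claimed.Agent.R242

open Polynomial

variable {K : Type} [Field K] [Algebra ℂ K] {W : ℕ → Submodule ℂ K} {N : ℕ} {τ : Fin N → K}

theorem resx_R_fg (h : ResxHyp W τ) : (resxR h).FG := by
  classical
  obtain ⟨G, hG⟩ := h.fg
  let L := FractionRing K[X]
  let φ : K[X] →ₗ[resxT τ] L := (IsScalarTower.toAlgHom (resxT τ) K[X] L).toLinearMap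
  have hφ : Function.Injective φ := IsFractionRing.injective K[X] L
  have : Algebra.FiniteType ℂ (resxT τ) := (Subalgebra.fg_iff_finiteType _).mp (resxT_fg τ)
  refine Submodule.fg_of_fg_map_injective φ hφ ?_
  refine resx_fin (T := resxT τ) (L := L) ?_ (insert (algebraMap K[X] L X) (G.image fun a => algebraMap K[X] L (C a))) ?_ ?_ _ ?_
  · intro a b hab
    exact Subtype.ext (IsFractionRing.injective K[X] L hab)
  · intro x hx
    rcases Finset.mem_insert.mp hx with rfl | hx
    · exact resx_alg_t L h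
    · obtain ⟨a, -, rfl⟩ := Finset.mem_image.mp hx
      exact resx_alg_K L h a
  · intro F hT hS
    refine resx_top L hG F hT (fun a ha => hS _ ?_) (hS _ (Finset.mem_insert_self _ _))
    exact Finset.mem_insert_of_mem (Finset.mem_image_of_mem _ ha)
  · rintro _ ⟨g, hg, rfl⟩
    exact (resx_int h hg).map (IsScalarTower.toAlgHom (resxT τ) K[X] L)

/-- **the abstract finiteness theorem** -/
theorem resx_abs (h : ResxHyp W τ) :
    ∃ e₀ : ℕ, (∀ q, e₀ ≤ q → W (q + 1) ≤ W 1 * W q) ∧ ∀ q, FiniteDimensional ℂ (W q) :=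
  resx_extract h (resx_R_fg h)

end Claimed.Agent.R242
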