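/-
R242 / Res / XHom : package ALG-X (helper120).  (h3b): no `n + 2` homogeneously independent elements.   DONE (sorry-free; cites `E.isAlgebraic_adjoin`).
 `resx_not_algInd`: `K` is algebraic over `ℂ[z]` (`E.isAlgebraic_adjoin`), so the transcendence degree is `≤ n`.
 `resx_not_homIndep`: homogenisation `P = ∑_d X_0^(D-d) * G_d(X_1, ..)`.
-/
import Claimed.Agent.R242.Res.Defs
import Claimed.Agent.R242.Anad.Alg

set_option autoImplicit false

namespace Claimed.Agent.R242

open MvPolynomial
open scoped IntermediateField.algebraAdjoinAdjoin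

variable {n : ℕ} {K : Type} [Field K] [Algebra ℂ K]

/-- scaling of a homogeneous polynomial -/
theorem resx_aeval_smul {r d : ℕ} {Q : MvPolynomial (Fin r) ℂ} (hQ : Q.IsHomogeneous d) (c : K) (f : Fin r → K) :
    aeval (fun i => c * f i) Q = c ^ d * aeval f Q := by
  rw [aeval_def, aeval_def, eval₂_eq', eval₂_eq', Finset.mul_sum]
  refine Finset.sum_congr rfl fun m hm => ?_
  have hd : ∑ i, m i = d := by
    have := hQ (mem_support_iff.mp hm)
    rw [← this, Finsupp.weight_apply, Finsupp.sum_fintype _ _ (by simp)]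
    simp
  simp only [mul_pow, Finset.prod_mul_distrib, Finset.prod_pow_eq_pow_sum, hd]
  ring

theorem resx_not_homIndep {r : ℕ} (σ : Fin (r + 1) → K)
    (h : ∀ f : Fin r → K, ¬ AlgebraicIndependent ℂ f) : ¬ HomIndep σ := by
  intro hσ
  by_cases h0 : σ 0 = 0
  · have := hσ 1 (X 0) (isHomogeneous_X ℂ 0) (by simp [h0])
    exact X_ne_zero (R := ℂ) (0 : Fin (r + 1)) this
  · have hf := h (fun i => σ i.succ / σ 0)
    rw [algebraicIndependent_iff] at hf
    push Not at hf
    obtain ⟨G, hG, hG0⟩ := hf
    set D := G.totalDegree with hD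
    set P : MvPolynomial (Fin (r + 1)) ℂ :=
      ∑ d ∈ Finset.range (D + 1), X 0 ^ (D - d) * rename Fin.succ (homogeneousComponent d G) with hP
    have hPhom : P.IsHomogeneous D := by
      refine IsHomogeneous.sum _ _ _ fun d hd => ?_
      have hd' : d ≤ D := Nat.lt_succ_iff.mp (Finset.mem_range.mp hd)
      have := (isHomogeneous_X_pow (R := ℂ) (0 : Fin (r + 1)) (D - d)).mul
        ((homogeneousComponent_isHomogeneous d G).rename_isHomogeneous (f := Fin.succ))
      rwa [Nat.sub_add_cancel hd'] at this
    have hPval : aeval σ P = 0 := by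
      have hs : (fun i : Fin r => σ i.succ) = fun i => σ 0 * (σ i.succ / σ 0) := by
        funext i; field_simp
      have : aeval σ P = σ 0 ^ D * aeval (fun i => σ i.succ / σ 0) G := by
        conv_rhs => rw [← sum_homogeneousComponent G, map_sum, Finset.mul_sum]
        rw [hP, map_sum]
        refine Finset.sum_congr rfl fun d hd => ?_
        have hd' : d ≤ D := Nat.lt_succ_iff.mp (Finset.mem_range.mp hd)
        rw [map_mul, map_pow, aeval_X, aeval_rename]
        have : (σ ∘ Fin.succ) = fun i => σ 0 * (σ i.succ / σ 0) := hs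
        rw [this, resx_aeval_smul (homogeneousComponent_isHomogeneous d G), ← mul_assoc, ← pow_add,
          Nat.sub_add_cancel hd']
      rw [this, hG, mul_zero]
    have hP0 := hσ D P hPhom hPval
    apply hG0
    have h1 : aeval (Fin.cons 1 X : Fin (r + 1) → MvPolynomial (Fin r) ℂ) P = G := by
      conv_rhs => rw [← sum_homogeneousComponent G]
      rw [hP, map_sum]
      refine Finset.sum_congr rfl fun d _ => ?_
      rw [map_mul, map_pow, aeval_X, aeval_rename]
      have : ((Fin.cons 1 X : Fin (r + 1) → MvPolynomial (Fin r) ℂ) ∘ Fin.succ) = X := by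
        funext i; simp
      rw [this]
      simp
    rw [← h1, hP0, map_zero]

theorem resx_not_algInd (E : EChart n K) (f : Fin (n + 1) → K) : ¬ AlgebraicIndependent ℂ f := by
  intro hf
  have halg : Algebra.IsAlgebraic (Algebra.adjoin ℂ (Set.range E.zc)) K := by
    refine ⟨fun a => ?_⟩
    exact (IsFractionRing.isAlgebraic_iff (Algebra.adjoin ℂ (Set.range E.zc))
      (IntermediateField.adjoin ℂ (Set.range E.zc)) K).mpr (E.isAlgebraic_adjoin a)
  have h1 : Algebra.trdeg ℂ K ≤ Cardinal.mk (Set.range E.zc) := Algebra.IsAlgebraic.trdeg_le_cardinalMk ℂ (Set.range E.zc)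
  have h2 : Cardinal.mk (Set.range E.zc) ≤ Cardinal.mk (Fin n) := Cardinal.mk_range_le
  have h3 := hf.cardinalMk_le_trdeg
  have h4 := (h3.trans h1).trans h2
  simp only [Cardinal.mk_fin] at h4
  have : (n + 1 : ℕ) ≤ n := by exact_mod_cast h4
  omega

end Claimed.Agent.R242
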