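/-
R242 / Res / XSec : `Model.sec` (moved verbatim from `Res/Main.lean`, so that the proof files of ALG-X can import it), closure proofs: helper120.
-/
import Claimed.Agent.R242.Model
import Claimed.Agent.R242.Res.Defs

set_option autoImplicit false

namespace Claimed.Agent.R242

open MvPolynomial

section Model

variable {n : ℕ} {K : Type} [Field K] [Algebra ℂ K] (M : Model n K)

/-- `H^0(X, jL)` as a subspace of `K` -/
def Model.sec (j : ℕ) : Submodule ℂ K where
  carrier := {s | M.IsSec j s}
  add_mem' := by
    intro a b ha hb p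
    obtain ⟨P, Q, hQ, h⟩ := ha p
    obtain ⟨P', Q', hQ', h'⟩ := hb p
    refine ⟨P * Q' + P' * Q, Q * Q', by simp [hQ, hQ'], ?_⟩
    simp only [map_mul, map_add, ← h, ← h']
    ring
  zero_mem' := by
    intro p
    exact ⟨0, 1, by simp, by simp⟩
  smul_mem' := by
    intro c a ha p
    obtain ⟨P, Q, hQ, h⟩ := ha p
    refine ⟨C c * P, Q, hQ, ?_⟩
    simp only [map_mul, ← h, aeval_C, Algebra.smul_def]
    ring

theorem Model.mem_sec (j : ℕ) (s : K) : s ∈ M.sec j ↔ M.IsSec j s := Iff.rfl

theorem resx_sec_eqns_cite : True := by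
  have := @Model.sec.eq_1
  trivial

end Model

end Claimed.Agent.R242
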