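/-
R242 / Res / XModel : package ALG-X (architect helper120).  The hypotheses of `resx_abs` and of `ResHyp` hold on an ample `Model`.
No paper needed.  Citable: `Anad/Val.lean` (calculus of `EChart.RegAtPt`, `UnitAtPt`; `M.RegAt p a` is by definition
`(M.echart p).RegAtPt (M.base p) a`, see `Model.regAtPt_iff_echart`), `Anad/Alg.lean` section 2.

LEAF ALG-X-MOD-A = section A (easy: closure properties of sections, `fg`, `val`, `h2`)
 `resx_sec_mul`: `Submodule.mul_le`; `(a * b) * lam^(i+j) = (a * lam^i) * (b * lam^j)`; `EChart.RegAtPt.mul`.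
 `resx_exists_pt`: `hM.complete ⊤`.
 `resx_fg`: `G = Finset.univ.image (M.gen p)`; `a = aeval gen P / aeval gen Q` (`M.gen_frac p a`); `aeval gen P ∈ adjoin` by
   `MvPolynomial.induction_on` or `Algebra.adjoin_range_eq_range_aeval` + `IntermediateField.algebra_adjoin_le_adjoin`.
 `resx_val`: `p` from `hM.complete V hV`; `i` from `hb p (M.base p) (M.base_mem p)`; `u = τ i * lam p ^ κ` is a unit at `base p`, so `τ i ≠ 0`
   (`EChart.UnitAtPt.ne_zero`), and `f / τ i ^ q = (f * lam p ^ (q * κ)) / u ^ q` is regular at `p` (`EChart.RegAtPt.div`, `UnitAtPt.pow`).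
 `resx_ne_bot`: a point `p`, `i` with `τ i * lam^b` a unit, so `τ i ≠ 0`, `τ i ∈ sec b`.
LEAF ALG-X-MOD-B = section B (`alg`, `h3b`)
 `resx_alg`: `p` a point, `E = M.echart p`, `Y = Set.range E.zc`; `hM.coords p` gives `k₁, σ`; `m = κ`, `q = k₁`, `f = σ i.succ ^ κ`, `g = σ 0 ^ κ`
   (`resx_pow_mem`, `Nat.mul_comm`); `σ 0 ≠ 0` from `e * (σ 0 * lam^k₁) = 1`.  Algebraicity: `E.isAlgebraic_adjoin a` +
   `IsFractionRing.isAlgebraic_iff (Algebra.adjoin ℂ S) (IntermediateField.adjoin ℂ S) K`  (or `E.exists_poly a` + `E.aeval_zc_ne_zero`).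
 `resx_not_algInd`: `isTranscendenceBasis_iff_algebraicIndependent_isAlgebraic`, `IsTranscendenceBasis.lift_cardinalMk_eq_trdeg`,
   `AlgebraicIndependent.lift_cardinalMk_le_trdeg` (names may differ; see Mathlib/RingTheory/AlgebraicIndependent/TranscendenceBasis.lean).
 `resx_not_homIndep`: if `σ 0 = 0`, `P = X 0` (homogeneous of degree 1, nonzero, `aeval σ P = 0`).  Otherwise `f i = σ i.succ / σ 0`, `Fin (n+1) → K`, is not
   algebraically independent (`h f`): `G ≠ 0`, `aeval f G = 0`.  Homogenise: `D = G.totalDegree`,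
   `P = ∑ m ∈ G.support, monomial (Finsupp.cons (D - m.degree) m) (G.coeff m)`  (`Finsupp.cons : M → (Fin n →₀ M) → (Fin (n+1) →₀ M)`);
   `P` is homogeneous of degree `D`, `aeval σ P = σ 0 ^ D * aeval f G = 0`, `P ≠ 0` (the exponents `cons .. m` are distinct: coefficient at
   `cons (D - m.degree) m` is `G.coeff m`).     (Mathlib may have `MvPolynomial.homogenize`-like API: check; by hand is ~60 lines.)
LEAF ALG-X-MOD-C = section C (`fin` in all degrees, glue is done)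
 `resx_fin_all`: `κ ≥ 1`, all `sec (q * κ)` finite dimensional, `u ≠ 0`, `u ∈ sec b` with `κ ∣ j + b`:  `s ↦ s * u` is an injective linear map
   `sec j → sec (j + b)` (`LinearMap.mulRight`/`LinearMap.restrict`/`codRestrict`, `FiniteDimensional.of_injective`).
-/
import Claimed.Agent.R242.Res.XSec
import Claimed.Agent.R242.Res.XAbs
import Claimed.Agent.R242.Res.XHom
import Claimed.Agent.R242.Anad.Alg

set_option autoImplicit false

namespace Claimed.Agent.R242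

open MvPolynomial

variable {n : ℕ} {K : Type} [Field K] [Algebra ℂ K] (M : Model n K)

/-! ### A. easy properties -/

theorem Model.resx_one_mem : (1 : K) ∈ M.sec 0 := by
  intro p
  exact ⟨1, 1, by simp, by simp⟩

theorem Model.resx_sec_mul (i j : ℕ) : M.sec i * M.sec j ≤ M.sec (i + j) := by
  rw [Submodule.mul_le]
  intro a ha b hb p
  have h1 : (M.echart p).RegAtPt (M.base p) (a * M.lam p ^ i) := ha p
  have h2 : (M.echart p).RegAtPt (M.base p) (b * M.lam p ^ j) := hb p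
  have h3 := h1.mul h2
  have e : a * b * M.lam p ^ (i + j) = a * M.lam p ^ i * (b * M.lam p ^ j) := by
    rw [pow_add]; ring
  show (M.echart p).RegAtPt (M.base p) (a * b * M.lam p ^ (i + j))
  rw [e]
  exact h3

theorem Model.resx_mul_mem {i j : ℕ} {a b : K} (ha : a ∈ M.sec i) (hb : b ∈ M.sec j) : a * b ∈ M.sec (i + j) :=
  M.resx_sec_mul i j (Submodule.mul_mem_mul ha hb)

theorem Model.resx_pow_mem {j : ℕ} {s : K} (hs : s ∈ M.sec j) (m : ℕ) : s ^ m ∈ M.sec (m * j) := by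
  induction m with
  | zero => simpa using M.resx_one_mem
  | succ m ih =>
    rw [pow_succ, Nat.succ_mul]
    exact M.resx_mul_mem ih hs

variable {M}

theorem Model.resx_exists_pt (hM : M.IsAmple) : Nonempty M.Pt := by
  obtain ⟨p, -⟩ := hM.complete ⊤ (fun _ => trivial)
  exact ⟨p⟩

variable (M) in
theorem Model.resx_fg (p : M.Pt) : ∃ G : Finset K, IntermediateField.adjoin ℂ (G : Set K) = ⊤ := by
  classical
  refine ⟨Finset.univ.image (M.echart p).gen, ?_⟩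
  rw [Finset.coe_image, Finset.coe_univ, Set.image_univ]
  exact (M.echart p).alg_adjoin_gen

theorem Model.resx_val (hM : M.IsAmple) {κ N : ℕ} {τ : Fin N → K}
    (hb : ∀ p w, w ∈ (M.chart p).pts → ∃ i, M.UnitAtPt p w (τ i * M.lam p ^ κ))
    (V : ValuationSubring K) (hV : ∀ c : ℂ, algebraMap ℂ K c ∈ V) :
    ∃ i, τ i ≠ 0 ∧ ∀ q, ∀ f ∈ M.sec (q * κ), f / τ i ^ q ∈ V := by
  obtain ⟨p, hp⟩ := hM.complete V hV
  obtain ⟨i, hi⟩ := hb p (M.base p) (M.base_mem p)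
  have hu : (M.echart p).UnitAtPt (M.base p) (τ i * M.lam p ^ κ) := hi
  have hu0 : τ i * M.lam p ^ κ ≠ 0 := hu.ne_zero (M.base_mem p)
  have hτ0 : τ i ≠ 0 := left_ne_zero_of_mul hu0
  refine ⟨i, hτ0, fun q f hf => hp _ ?_⟩
  have h1 : (M.echart p).RegAtPt (M.base p) (f * M.lam p ^ (q * κ)) := hf p
  have h2 := h1.div (hu.pow q)
  have hl : M.lam p ≠ 0 := M.lam_ne p
  have e : f / τ i ^ q = f * M.lam p ^ (q * κ) / (τ i * M.lam p ^ κ) ^ q := by
    rw [mul_pow, ← pow_mul, Nat.mul_comm κ q]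
    field_simp
  show (M.echart p).RegAtPt (M.base p) (f / τ i ^ q)
  rw [e]
  exact h2

theorem Model.resx_ne_bot (hM : M.IsAmple) {b N : ℕ} {τ : Fin N → K} (hτ : ∀ i, M.IsSec b (τ i))
    (hb : ∀ p w, w ∈ (M.chart p).pts → ∃ i, M.UnitAtPt p w (τ i * M.lam p ^ b)) :
    ∃ u ∈ M.sec b, u ≠ 0 := by
  obtain ⟨p⟩ := Model.resx_exists_pt hM
  obtain ⟨i, hi⟩ := hb p (M.base p) (M.base_mem p)
  have hu : (M.echart p).UnitAtPt (M.base p) (τ i * M.lam p ^ b) := hi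
  exact ⟨τ i, hτ i, left_ne_zero_of_mul (hu.ne_zero (M.base_mem p))⟩

/-! ### B. algebraicity -/

theorem Model.resx_alg (hM : M.IsAmple) {κ : ℕ} (hκ : 1 ≤ κ) :
    ∃ Y : Set K, (∀ y ∈ Y, ∃ m q : ℕ, 1 ≤ m ∧ ∃ f ∈ M.sec (q * κ), ∃ g ∈ M.sec (q * κ), g ≠ 0 ∧ y ^ m * g = f) ∧
      ∀ a : K, IsAlgebraic (Algebra.adjoin ℂ Y) a := by
  obtain ⟨p⟩ := Model.resx_exists_pt hM
  refine ⟨Set.range (M.echart p).zc, ?_, (M.echart p).alg_isAlgebraic_algAdjoin⟩
  rintro _ ⟨i, rfl⟩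
  obtain ⟨k₁, σ, -, hσ, ⟨e, -, he⟩, hz⟩ := hM.coords p
  have hσ0 : σ 0 ≠ 0 := by
    intro h0
    rw [h0, zero_mul, mul_zero] at he
    exact zero_ne_one he
  refine ⟨κ, k₁, hκ, σ i.succ ^ κ, ?_, σ 0 ^ κ, ?_, pow_ne_zero _ hσ0, ?_⟩
  · rw [Nat.mul_comm]
    exact M.resx_pow_mem (hσ _) κ
  · rw [Nat.mul_comm]
    exact M.resx_pow_mem (hσ _) κ
  · rw [← mul_pow]
    congr 1
    exact hz i

theorem Model.resx_h3b (hM : M.IsAmple) (σ : Fin (n + 2) → K) : ¬ HomIndep σ := by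
  obtain ⟨p⟩ := Model.resx_exists_pt hM
  exact resx_not_homIndep σ (resx_not_algInd (M.echart p))

/-! ### C. assembly -/

theorem Model.resx_hyp (hM : M.IsAmple) {κ N : ℕ} (hκ : 1 ≤ κ) {τ : Fin N → K} (hτ : ∀ i, M.IsSec κ (τ i))
    (hb : ∀ p w, w ∈ (M.chart p).pts → ∃ i, M.UnitAtPt p w (τ i * M.lam p ^ κ)) :
    ResxHyp (fun q => M.sec (q * κ)) τ where
  one := by simpa using M.resx_one_mem
  mul i j := by
    have := M.resx_sec_mul (i * κ) (j * κ)
    rwa [← add_mul] at this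
  tau i := by simpa [Model.mem_sec] using hτ i
  val := Model.resx_val hM hb
  fg := by
    obtain ⟨p⟩ := Model.resx_exists_pt hM
    exact M.resx_fg p
  alg := Model.resx_alg hM hκ

theorem Model.resx_fin_all {κ : ℕ} (hκ : 1 ≤ κ) (hfin : ∀ q, FiniteDimensional ℂ (M.sec (q * κ)))
    {b₀ : ℕ} (hne : ∀ b, b₀ ≤ b → ∃ u ∈ M.sec b, u ≠ 0) (j : ℕ) : FiniteDimensional ℂ (M.sec j) := by
  -- `b = (j + b₀) * κ - j ≥ b₀`, `j + b = (j + b₀) * κ`
  have hle : j + b₀ ≤ (j + b₀) * κ := Nat.le_mul_of_pos_right _ hκ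
  obtain ⟨u, hu, hu0⟩ := hne ((j + b₀) * κ - j) (by omega)
  have hfin' := hfin (j + b₀)
  have hjb : j + ((j + b₀) * κ - j) = (j + b₀) * κ := by omega
  let φ : M.sec j →ₗ[ℂ] M.sec ((j + b₀) * κ) :=
    ((LinearMap.mulRight ℂ u).comp (M.sec j).subtype).codRestrict _ (fun s => by
      have := M.resx_mul_mem s.2 hu
      rw [hjb] at this
      exact this)
  refine FiniteDimensional.of_injective φ ?_
  intro s t hst
  have h1 : (s : K) * u = (t : K) * u := congrArg Subtype.val hst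
  exact Subtype.ext (mul_right_cancel₀ hu0 h1)

/-- **ALG-X** -/
theorem Model.resx_resHyp (hM : M.IsAmple) :
    ∃ j₀ : ℕ, ∀ k, j₀ ≤ k → 1 ≤ k → ∃ e₀ b₀ : ℕ, ResHyp K M.sec k e₀ b₀ n := by
  obtain ⟨j₀, hj₀⟩ := hM.bpf
  refine ⟨j₀, fun k hk hk1 => ?_⟩
  obtain ⟨N, τ, hτ, hb⟩ := hj₀ k hk
  obtain ⟨N', τ', hτ', hb'⟩ := hj₀ (k + 1) (by omega)
  obtain ⟨e, he, hfin⟩ := resx_abs (Model.resx_hyp hM hk1 hτ hb)
  obtain ⟨e', he', -⟩ := resx_abs (Model.resx_hyp hM (by omega : 1 ≤ k + 1) hτ' hb')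
  have hne : ∀ b, j₀ ≤ b → ∃ u ∈ M.sec b, u ≠ 0 := by
    intro b hb0
    obtain ⟨N₂, τ₂, hτ₂, hb₂⟩ := hj₀ b hb0
    exact Model.resx_ne_bot hM hτ₂ hb₂
  refine ⟨max e e', j₀, ?_⟩
  refine
    { fin := Model.resx_fin_all hk1 hfin hne
      mul := M.resx_sec_mul
      h1 := ?_
      h1' := ?_
      h2 := ?_
      h3b := fun j σ _ => Model.resx_h3b hM σ }
  · intro q hq
    simpa using he q (le_trans (le_max_left _ _) hq)
  · intro q hq
    simpa using he' q (le_trans (le_max_right _ _) hq)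
  · intro b hb0 hbot
    obtain ⟨u, hu, hu0⟩ := hne b hb0
    rw [hbot] at hu
    exact hu0 ((Submodule.mem_bot ℂ).mp hu)

end Claimed.Agent.R242
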