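/-
R242 / Res / Main : PUBLIC STATEMENTS of package ALG (uniform restriction lemma = paper Lemma 5.2, growth of `N_j`).
Statements: helper73 (spec: helper100, msg 10226).   ARCHITECT WANTED.

PART 1 (abstract, no geometry).  `B` a domain over `ℂ`, `S h ⊆ B` finite dimensional, `S i * S j ⊆ S (i+j)`.
 (h1)  for `κ ∈ {k, k+1}` and `q ≥ e₀`:  `S ((q+1) κ) ⊆ S κ * S (q κ)`   (this encodes: `L` is a line bundle, `κL` is base point free)
 (h2)  `S b ≠ 0` for `b ≥ b₀`
 (h3b) no `S j` contains `n+2` homogeneously independent elements.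
 `res_main` : if some `S k'` contains `d+1` homogeneously independent elements then `(d! dim S h)^(1/d) ≥ h - C` for `h ≥ H`,
              `C, H` depending only on `(k, e₀, b₀, n)`.
 `res_upper`: `dim S j ≤ CN j^n`.

PROOF PLAN.  Graded ring `⊕ S_h τ^h ⊆ B[τ]`.  Let `d1 + 1` = maximal size of a HomIndep family (`d ≤ d1 ≤ n`; the same in all degrees
`j` that are multiples of `k` or `k+1`: powers of independent elements are independent, and `S_(jκ)` is integral over `ℂ[S_κ]`).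
 (1) graded Noether normalisation with linear forms: `σ_0..σ_d1 ∈ S_κ` HomIndep, every `a ∈ S_κ` integral (homogeneous monic equation)
     over `P = ℂ[σ]`.
 (2) `F = Frac B`, `K0 = ℂ(σ_i/σ_0)`, `M_j = K0`-span of `S_(jκ)/σ_0^j`: increasing, `M_(j+1) = M_1 M_j` for `j ≥ e₀`, union = a field `E`
     finite over `K0`, `D_κ = [E : K0]`.  If `M_(j+1) = M_j` for one `j ≥ e₀` then `M_j = E`.  Hence `dim M_(e₀+D0-1) ≥ D0` if `D0 ≤ D_κ`.
 (3) `dim_K0 M_j ≥ D0  ⟹  dim_ℂ S_((j+q)κ) ≥ D0 * choose (q+d1) d1`.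
 (4) `⊕_q S_(qκ)` is a finite torsion free `P`-module of rank `D_κ`: `dim S_(qκ) ≤ D_κ * choose (q+c+d1) d1`.
 (5) (h2) + injectivity of multiplication: compare `h = q k (k+1)`:  `D_k (k+1)^d1 = D_(k+1) k^d1`, so `k^d1 ∣ D_k`, `D_k ≥ k^d1`.
 (6) `D0 = k^d1`:  `(d1! dim S_(qk))^(1/d1) ≥ k (q - e₀ - k^d1 + 1)`; all degrees by (h2).
 (7) from `d1` to `d ≤ d1`.

PART 2 (ALG-X: the hypotheses hold on a `Model`).  `M.sec j = H^0(X, jL)`.
 Integrality: `τ_0..τ_N ∈ sec κ` base point free.  For `f ∈ sec (qκ)`, `f t^q` is integral over `T = ℂ[τ_i t] ⊆ K(t)`: by Mathlib's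
 `iInf_valuationSubring_superset` it suffices that every valuation subring `V ⊇ T` of `K(t)` contains `f t^q`; `V ∩ K` contains `ℂ`, so it contains
 some `O_p` (`IsAmple.complete`); choose `i` with `τ_i lam_p^κ` a unit of `O_p`: `f t^q = (f lam_p^(qκ)) / (τ_i lam_p^κ)^q * (τ_i t)^q ∈ V`.
 Finiteness: Noether normalisation of `T` + finiteness of the integral closure in a finite separable extension (char 0).
 Hence `⊕_q sec (qκ)` is a finite `T`-module, generated in degrees `≤ e₀`:  (h1), and every `sec j` is finite dimensional.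
 (h3b): `K` is algebraic over `ℂ(z_1..z_n)` (relations of the chart with invertible Jacobian).
-/
import Mathlib
import Claimed.Agent.R242.Model
import Claimed.Agent.R242.Res.Defs
import Claimed.Agent.R242.Res.XModel
import Claimed.Agent.R242.Res.SandFin

set_option autoImplicit false

namespace Claimed.Agent.R242

open Module

/-- **Lemma 5.2, abstract form.** -/
theorem res_main (k e₀ b₀ n : ℕ) (hk : 1 ≤ k) :
    ∃ (C : ℝ) (H : ℕ), ∀ (B : Type) [CommRing B] [IsDomain B] [Algebra ℂ B] (S : ℕ → Submodule ℂ B),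
      ResHyp B S k e₀ b₀ n → ∀ (d : ℕ), 1 ≤ d → ∀ (k' : ℕ) (σ : Fin (d + 1) → B), (∀ i, σ i ∈ S k') → HomIndep σ →
      ∀ h : ℕ, H ≤ h → (h : ℝ) - C ≤ ((d.factorial : ℝ) * finrank ℂ (S h)) ^ (1 / (d : ℝ)) :=
  res_main_pf k e₀ b₀ n hk

/-- polynomial growth -/
theorem res_upper (k e₀ b₀ n : ℕ) (hk : 1 ≤ k) (B : Type) [CommRing B] [IsDomain B] [Algebra ℂ B]
    (S : ℕ → Submodule ℂ B) (hS : ResHyp B S k e₀ b₀ n) :
    ∃ CN : ℝ, ∀ j : ℕ, 1 ≤ j → (finrank ℂ (S j) : ℝ) ≤ CN * (j : ℝ) ^ n :=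
  res_upper_pf k e₀ b₀ n hk B S hS

section Model

variable {n : ℕ} {K : Type} [Field K] [Algebra ℂ K] (M : Model n K)

-- `Model.sec`, `Model.mem_sec` : moved verbatim to `Res/XSec.lean` (helper120)

/-- **ALG-X**: for every large `k` the sections of the model satisfy the hypotheses of the restriction lemma.
Proof: `Res/X*.lean` (helper120). -/
theorem Model.resHyp (hM : M.IsAmple) :
    ∃ j₀ : ℕ, ∀ k, j₀ ≤ k → 1 ≤ k → ∃ e₀ b₀ : ℕ, ResHyp K M.sec k e₀ b₀ n :=
  Model.resx_resHyp hM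

end Model

end Claimed.Agent.R242
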